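import Vale.Agent.N321.Lower
import Vale.Agent.P321Z.Upper
import Vale.Agent.P321.H778.Two

/-!
The bounds at a fixed deletion probability.
-/

namespace Vale.Agent.N321

open Vale.Agent.P321 Vale.Agent.P321Z Filter Topology
open scoped unitInterval

theorem upper_s {a : ℝ} (ha : 2 < a) : ∃ C : ℝ, 0 < C ∧ ∀ q : I, (q : ℝ) < 1 → ∀ n : ℕ, 2 ≤ n →
    ∀ s : ℝ, s ≤ 1 - Real.exp (-n) →
      Ts q s n ≤ (⌊Real.exp (C / (1 - q) * (Real.log n) ^ a)⌋₊ : ℕ∞) := by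
  obtain ⟨C, hC, h⟩ := H778.exp_two ha
  have hl2 : 0 < Real.log 2 := Real.log_pos (by norm_num)
  have hp : 0 < (Real.log 2) ^ (a - 1) := Real.rpow_pos_of_pos hl2 _
  refine ⟨2 * C + 13 / (Real.log 2) ^ (a - 1), by positivity, fun q hq n hn s hs => ?_⟩
  have hnR : (2 : ℝ) ≤ n := by exact_mod_cast hn
  have hL : Real.log 2 ≤ Real.log n := Real.log_le_log (by norm_num) hnR
  have hL0 : 0 < Real.log n := by linarith
  have h1q : 0 < 1 - (q : ℝ) := by linarith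
  have hLa : 0 < (Real.log n) ^ a := Real.rpow_pos_of_pos hL0 _
  refine (Ts_le_of_T q hn (by positivity) (h q hq n hn) hs).trans ?_
  have e1 : 13 * Real.log n ≤ 13 / (Real.log 2) ^ (a - 1) / (1 - q) * (Real.log n) ^ a := by
    have f1 : (Real.log 2) ^ (a - 1) ≤ (Real.log n) ^ (a - 1) :=
      Real.rpow_le_rpow hl2.le hL (by linarith)
    have f2 : (Real.log n) ^ a = (Real.log n) ^ (a - 1) * Real.log n := by
      rw [← Real.rpow_add_one hL0.ne']; ring_nf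
    have f3 : 13 * Real.log n ≤ 13 / (Real.log 2) ^ (a - 1) * (Real.log n) ^ a := by
      rw [f2, div_mul_eq_mul_div, le_div_iff₀ hp]
      nlinarith
    refine f3.trans (mul_le_mul_of_nonneg_right ?_ hLa.le)
    rw [le_div_iff₀ h1q]
    have : 0 ≤ 13 / (Real.log 2) ^ (a - 1) := by positivity
    nlinarith [q.2.1]
  have e2 : 2 * (C / (1 - q) * (Real.log n) ^ a) + 13 * Real.log n ≤
      (2 * C + 13 / (Real.log 2) ^ (a - 1)) / (1 - q) * (Real.log n) ^ a := by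
    have : (2 * C + 13 / (Real.log 2) ^ (a - 1)) / (1 - q) * (Real.log n) ^ a =
        2 * (C / (1 - q) * (Real.log n) ^ a) +
          13 / (Real.log 2) ^ (a - 1) / (1 - q) * (Real.log n) ^ a := by ring
    linarith
  exact_mod_cast Nat.floor_le_floor (Real.exp_le_exp.2 e2)

theorem fixed_q (q : I) (h0 : 0 < (q : ℝ)) (h1 : (q : ℝ) < 1) : ∃ c : ℝ, 0 < c ∧ ∀ a : ℝ, 2 < a →
    ∀ᶠ n : ℕ in atTop,
      (⌈Real.exp (c * (Real.log n) ^ (1 + 1 / 33 : ℝ))⌉₊ : ℕ∞) ≤ T q n ∧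
      T q n ≤ (⌊Real.exp ((Real.log n) ^ a)⌋₊ : ℕ∞) := by
  obtain ⟨c, C, hc, h⟩ := lower_cube
  have hq3 : 0 < (q : ℝ) ^ 3 := by positivity
  refine ⟨c * ((q : ℝ) ^ 3) ^ (1 / 33 : ℝ), by positivity, fun a ha => ?_⟩
  obtain ⟨D, hD, hup⟩ := H778.exp_two (α := (a + 2) / 2) (by linarith)
  have hlog : Tendsto (fun n : ℕ => Real.log (n : ℝ)) atTop atTop :=
    Real.tendsto_log_atTop.comp tendsto_natCast_atTop_atTop
  have ev1 := hlog.eventually (MA.ev_pow_le (D / (1 - q)) ((a + 2) / 2) a (by linarith))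
  filter_upwards [ev1, hlog.eventually_ge_atTop (max C 1 / (q : ℝ) ^ 3),
    hlog.eventually_ge_atTop (1 / c), eventually_ge_atTop 2] with n g1 g2 g3 g4
  have hL0 : 0 < Real.log (n : ℝ) := lt_of_lt_of_le (by positivity) g3
  rw [div_le_iff₀ hq3, mul_comm] at g2
  refine ⟨?_, (hup q h1 n g4).trans ?_⟩
  · rw [T_eq_Ts]
    have e : c * ((q : ℝ) ^ 3) ^ (1 / 33 : ℝ) * (Real.log n) ^ (1 + 1 / 33 : ℝ)
        = c * Real.log n * ((q : ℝ) ^ 3 * Real.log n) ^ (1 / 33 : ℝ) := by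
      rw [Real.mul_rpow hq3.le hL0.le, Real.rpow_add hL0, Real.rpow_one]
      ring
    rw [e]
    refine (h n q ((le_max_left _ _).trans g2)).2 _ ?_
    have f1 : 1 ≤ ((q : ℝ) ^ 3 * Real.log n) ^ (1 / 33 : ℝ) :=
      Real.one_le_rpow ((le_max_right _ _).trans g2) (by norm_num)
    have f2 := mul_le_mul_of_nonneg_left f1 (mul_nonneg hc.le hL0.le)
    rw [div_le_iff₀ hc] at g3
    have a2 : Real.exp (-1) ≤ 1 / 2 := by
      rw [Real.exp_neg, ← one_div]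
      apply one_div_le_one_div_of_le (by norm_num)
      have := Real.add_one_le_exp (1 : ℝ)
      linarith
    have a3 : Real.exp (-(c * Real.log n * ((q : ℝ) ^ 3 * Real.log n) ^ (1 / 33 : ℝ)))
        ≤ Real.exp (-1) := Real.exp_le_exp.2 (by linarith)
    linarith
  · exact_mod_cast Nat.floor_le_floor (Real.exp_le_exp.2 g1)

theorem superpoly (q : I) (h0 : 0 < (q : ℝ)) (h1 : (q : ℝ) < 1) (k : ℕ) :
    ∀ᶠ n : ℕ in atTop, ((n ^ k : ℕ) : ℕ∞) < T q n := by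
  obtain ⟨c, hc, h⟩ := fixed_q q h0 h1
  have hlog : Tendsto (fun n : ℕ => Real.log (n : ℝ)) atTop atTop :=
    Real.tendsto_log_atTop.comp tendsto_natCast_atTop_atTop
  filter_upwards [h 3 (by norm_num), hlog.eventually
    (MA.ev_pow_le ((k + 1) / c) 1 (1 + 1 / 33) (by norm_num)), eventually_ge_atTop 2]
    with n g1 g2 g3
  refine lt_of_lt_of_le ?_ g1.1
  have hn : (2 : ℝ) ≤ n := by exact_mod_cast g3
  have hL : 0 < Real.log (n : ℝ) := Real.log_pos (by linarith)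
  rw [Real.rpow_one, div_mul_eq_mul_div, div_le_iff₀ hc] at g2
  have e : ((n ^ k : ℕ) : ℝ) = Real.exp (k * Real.log n) := by
    rw [Real.exp_nat_mul, Real.exp_log (by linarith)]
    push_cast
    rfl
  have f : ((n ^ k : ℕ) : ℝ) < Real.exp (c * (Real.log n) ^ (1 + 1 / 33 : ℝ)) := by
    rw [e]
    exact Real.exp_lt_exp.2 (by linarith)
  exact_mod_cast Nat.lt_ceil.2 f

end Vale.Agent.N321
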