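import Vale.Agent.N321.Round
import Vale.Agent.P321W.Lower

/-!
The recursion long round, long round, short round, and the lower bound with exponent `1 + 1/33`.
-/

namespace Vale.Agent.N321

open Filter Topology Vale.Agent.P321 Vale.Agent.P321Z
open Vale.Agent.P321.LB2 hiding Num NumOK TStepU tstep_of tstepU norm_W_le RoundU cover_uni
open Vale.Agent.P321W hiding close_cube lower_cube
open scoped unitInterval ENNReal

/-- two long rounds and a short round -/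
theorem super : ∀ᶠ a : ℝ in atTop, ∀ q : ℝ, 0 ≤ q → q ≤ 1 → ∀ b : ℝ,
    StL q (1 / 500000) a b (106 / 100 * b) → 2000 * a ≤ b → b ≤ a ^ (1 + 1 / 20 : ℝ) →
    ∃ a' : ℝ, 2 * a ≤ a' ∧ a' ≤ 5337 / 100 * a ∧
      StL q (1 / 500000) a' (6024 / 100 * b - 20000 * a)
        (106 / 100 * (6024 / 100 * b - 20000 * a)) := by
  obtain ⟨a1, ha1⟩ := Filter.eventually_atTop.1 rounds
  filter_upwards [eventually_ge_atTop a1, eventually_ge_atTop 100,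
    MA.ev_pow_le 30 (1 + 1 / 20) (1 + 1 / 16) (by norm_num)] with
    a h1 h3 h4 q hq0 hq1 b hS hR hb
  have ha0 : (0:ℝ) < a := by linarith
  have hpow : ∀ x : ℝ, a ≤ x → 30 * b ≤ x ^ (1 + 1 / 16 : ℝ) := by
    intro x hx
    calc 30 * b ≤ 30 * a ^ (1 + 1 / 20 : ℝ) := by linarith
      _ ≤ a ^ (1 + 1 / 16 : ℝ) := h4
      _ ≤ x ^ (1 + 1 / 16 : ℝ) := Real.rpow_le_rpow ha0.le hx (by norm_num)
  obtain ⟨x1, x1l, x1u, S1⟩ := (ha1 a h1 q hq0 hq1 b _ hS (by linarith) (by linarith) (by linarith)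
    (by linarith [hpow a le_rfl])).1
  have hx1 : a ≤ x1 := by linarith
  obtain ⟨x2, x2l, x2u, S2⟩ := (ha1 x1 (by linarith) q hq0 hq1 _ _ S1 (by linarith) (by linarith)
    (by linarith) (by linarith [hpow x1 hx1])).1
  have hx2 : a ≤ x2 := by linarith
  have S3 := (ha1 x2 (by linarith) q hq0 hq1 _ _ S2 (by linarith) (by linarith)
    (by linarith) (by linarith [hpow x2 hx2])).2
  exact ⟨_, by linarith, by linarith, S3.mono (by linarith) (by linarith)⟩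

theorem num33 : (5337 / 100 : ℝ) ^ (1 + 1 / 33 : ℝ) < 6024 / 100 := by
  have e : (5337 / 100 : ℝ) ^ (1 + 1 / 33 : ℝ) = ((5337 / 100 : ℝ) ^ (34 : ℕ)) ^ (1 / 33 : ℝ) := by
    rw [← Real.rpow_natCast, ← Real.rpow_mul (by norm_num)]
    norm_num
  have e2 : (6024 / 100 : ℝ) = ((6024 / 100 : ℝ) ^ (33 : ℕ)) ^ (1 / 33 : ℝ) := by
    rw [← Real.rpow_natCast, ← Real.rpow_mul (by norm_num)]
    norm_num
  rw [e, e2]
  exact Real.rpow_lt_rpow (by positivity) (by norm_num) (by norm_num)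

/-- **The recursion, uniform in `q`.** -/
theorem cover_uni {ε A κ C R0 l ρ : ℝ} (hA : 2 ≤ A) (hκ0 : 0 < κ) (hκ : κ ≤ 1 / 20)
    (hρ : 0 ≤ ρ) (hA120 : A ^ (1 + κ) < l)
    (hS : ∀ᶠ a : ℝ in atTop, ∀ q : ℝ, 0 ≤ q → q ≤ 1 → ∀ b : ℝ,
      StL q ε a b (ρ * b) → R0 * a ≤ b → b ≤ a ^ (1 + 1 / 20 : ℝ) →
      ∃ a' : ℝ, 2 * a ≤ a' ∧ a' ≤ A * a ∧ StL q ε a' (l * b - C * a) (ρ * (l * b - C * a))) :
    ∃ R a1 : ℝ, 1 ≤ R ∧ ∀ q : ℝ, 0 ≤ q → q ≤ 1 → ∀ a0 : ℝ, a1 ≤ a0 → 1 ≤ a0 → R ≤ a0 ^ κ →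
      StL q ε a0 (R * a0) (ρ * (R * a0)) →
      ∀ t : ℝ, a0 ≤ t → ∃ a : ℝ, a ≤ t ∧ t ≤ A * a ∧ a0 ≤ a ∧
        StL q ε a (R / a0 ^ κ * a ^ (1 + κ)) (ρ * (R / a0 ^ κ * a ^ (1 + κ))) := by
  set g : ℝ := l - A ^ (1 + κ) with hg
  have hg0 : 0 < g := by rw [hg]; linarith
  set R : ℝ := max (max R0 (C / g)) 1 with hR
  have hR1 : 1 ≤ R := le_max_right _ _
  have hRR0 : R0 ≤ R := (le_max_left _ _).trans (le_max_left _ _)
  have hRC : C / g ≤ R := (le_max_right _ _).trans (le_max_left _ _)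
  obtain ⟨a1, ha1⟩ := Filter.eventually_atTop.1 hS
  refine ⟨R, a1, hR1, fun q hq0 hq1 a0 ha01 ha0g hRa0 hb0 => ?_⟩
  have ha0 : 0 < a0 := by linarith
  have ha0κ : 0 < a0 ^ κ := Real.rpow_pos_of_pos ha0 _
  set c : ℝ := R / a0 ^ κ with hc
  have hc0 : 0 < c := by positivity
  have hc1 : c ≤ 1 := (div_le_one ha0κ).2 hRa0
  have hcR : c * a0 ^ κ = R := div_mul_cancel₀ _ ha0κ.ne'
  have hf : ∀ a : ℝ, a0 ≤ a → c * a ^ (1 + κ) = c * a ^ κ * a := fun a ha => by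
    rw [Real.rpow_one_add' (by linarith) (by linarith)]; ring
  have hfR : ∀ a : ℝ, a0 ≤ a → R * a ≤ c * a ^ (1 + κ) := fun a ha => by
    rw [hf a ha, ← hcR]
    have : a0 ^ κ ≤ a ^ κ := Real.rpow_le_rpow ha0.le ha hκ0.le
    have ha' : 0 ≤ a := by linarith
    gcongr
  -- base
  have hbase0 : StL q ε a0 (c * a0 ^ (1 + κ)) (ρ * (c * a0 ^ (1 + κ))) := by
    rw [hf a0 le_rfl, hcR]; exact hb0
  -- step
  have hstep : ∀ a : ℝ, a0 ≤ a → StL q ε a (c * a ^ (1 + κ)) (ρ * (c * a ^ (1 + κ))) →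
      ∃ a' : ℝ, 2 * a ≤ a' ∧ a' ≤ A * a ∧ StL q ε a' (c * a' ^ (1 + κ)) (ρ * (c * a' ^ (1 + κ))) := by
    intro a ha hSt
    have hapos : 0 < a := by linarith
    have hRa := hfR a ha
    obtain ⟨a', h1, h2, h3⟩ := ha1 a (by linarith) q hq0 hq1 _ hSt
      ((mul_le_mul_of_nonneg_right hRR0 hapos.le).trans hRa) (by
        have h4 : a ^ (1 + κ) ≤ a ^ (1 + 1 / 20 : ℝ) :=
          Real.rpow_le_rpow_of_exponent_le (by linarith) (by linarith)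
        calc c * a ^ (1 + κ) ≤ 1 * a ^ (1 + κ) :=
              mul_le_mul_of_nonneg_right hc1 (Real.rpow_nonneg hapos.le _)
          _ = a ^ (1 + κ) := one_mul _
          _ ≤ _ := h4)
    have h5 : c * a' ^ (1 + κ) ≤ l * (c * a ^ (1 + κ)) - C * a := by
      have h6 : a' ^ (1 + κ) ≤ A ^ (1 + κ) * a ^ (1 + κ) := by
        rw [← Real.mul_rpow (by linarith) hapos.le]
        exact Real.rpow_le_rpow (by linarith) h2 (by linarith)
      have h7 : c * a' ^ (1 + κ) ≤ A ^ (1 + κ) * (c * a ^ (1 + κ)) := by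
        calc c * a' ^ (1 + κ) ≤ c * (A ^ (1 + κ) * a ^ (1 + κ)) :=
              mul_le_mul_of_nonneg_left h6 hc0.le
          _ = _ := by ring
      have h8 : C * a ≤ g * (c * a ^ (1 + κ)) := by
        have h9 : C ≤ g * R := by
          rw [div_le_iff₀ hg0] at hRC; linarith
        calc C * a ≤ g * R * a := mul_le_mul_of_nonneg_right h9 hapos.le
          _ = g * (R * a) := by ring
          _ ≤ _ := mul_le_mul_of_nonneg_left hRa hg0.le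
      have h10 : g * (c * a ^ (1 + κ)) = l * (c * a ^ (1 + κ)) -
          A ^ (1 + κ) * (c * a ^ (1 + κ)) := by rw [hg]; ring
      linarith
    exact ⟨a', h1, h2, h3.mono h5 (mul_le_mul_of_nonneg_left h5 hρ)⟩
  intro t ht
  by_contra hcon
  push Not at hcon
  have hind : ∀ j : ℕ, ∃ a : ℝ, 2 ^ j * a0 ≤ a ∧ a ≤ t ∧
      StL q ε a (c * a ^ (1 + κ)) (ρ * (c * a ^ (1 + κ))) := by
    intro j
    induction j with
    | zero => exact ⟨a0, by simp, ht, hbase0⟩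
    | succ j ih =>
      obtain ⟨a, h1, h2, h3⟩ := ih
      have h2j : (1:ℝ) ≤ 2 ^ j := one_le_pow₀ (by norm_num)
      have ha : a0 ≤ a := by nlinarith
      have hlt : ¬ (t ≤ A * a) := fun h => hcon a h2 h ha h3
      obtain ⟨a', g1, g2, g3⟩ := hstep a ha h3
      refine ⟨a', ?_, ?_, g3⟩
      · rw [pow_succ]; linarith
      · linarith
  obtain ⟨j, hj⟩ := pow_unbounded_of_one_lt t (one_lt_two (α := ℝ))
  obtain ⟨a, h1, h2, _⟩ := hind j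
  have : (2:ℝ) ^ j * 1 ≤ 2 ^ j * a0 := mul_le_mul_of_nonneg_left ha0g (by positivity)
  linarith

/-- close pairs as soon as `q ^ 3 L ≥ C` -/
theorem close_cube : ∃ C c1 : ℝ, 1 ≤ C ∧ 0 < c1 ∧ ∀ q : ℝ, 0 < q → q ≤ 1 / 2 → ∀ L : ℝ,
    C ≤ q ^ 3 * L →
    Close q (Real.exp (L / 2)) (Real.exp (-(c1 * L * (q ^ 3 * L) ^ (1 / 33 : ℝ)))) := by
  obtain ⟨R, a1, hR1, hcov⟩ := cover_uni (κ := 1 / 33) (by norm_num) (by norm_num) (by norm_num)
    (by norm_num) num33 super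
  obtain ⟨Cb, hCb1, hbase⟩ := base_uni_cube (1 / 500000) (2 * R) (by norm_num)
  obtain ⟨aT, haT⟩ := Filter.eventually_atTop.1
    (Real.tendsto_exp_atTop.eventually (St_close (1 / 500000) (by norm_num)))
  obtain ⟨C1, hC1⟩ : ∃ C1 : ℝ, C1 = Cb + |a1| + |aT| + R ^ (33 : ℕ) := ⟨_, rfl⟩
  have p1 := le_abs_self a1
  have p2 := le_abs_self aT
  have p3 := abs_nonneg a1
  have p4 := abs_nonneg aT
  have p5 : (0 : ℝ) ≤ R ^ (33 : ℕ) := by positivity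
  have hC11 : 1 ≤ C1 := by linarith
  have hCC : 1 ≤ Cb * C1 := one_le_mul_of_one_le_of_one_le hCb1 hC11
  set c1 : ℝ := R / ((Cb * C1) ^ (1 / 33 : ℝ) * (4 * (5337 / 100)) ^ (1 + 1 / 33 : ℝ)) with hc1
  have hc10 : 0 < c1 := by positivity
  refine ⟨4 * (Cb * C1), c1, by linarith, hc10, fun q h0 h2 L hL => ?_⟩
  have hq3 : 0 < q ^ 3 := by positivity
  have hq31 : q ^ 3 ≤ 1 := pow_le_one₀ h0.le (by linarith)
  have hL0 : 0 < L := by
    by_contra hn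
    have : q ^ 3 * L ≤ 0 := mul_nonpos_of_nonneg_of_nonpos hq3.le (not_lt.mp hn)
    linarith
  have ht : C1 ≤ C1 / q ^ 3 := by
    rw [le_div_iff₀ hq3]; exact mul_le_of_le_one_right (by linarith) hq31
  obtain ⟨a0, ha0l, ha0u, hSt0⟩ := hbase q h0 h2 (C1 / q ^ 3)
    (div_le_div_of_nonneg_right (by linarith) hq3.le)
  have ha01 : 1 ≤ a0 := by linarith
  have ha0p : 0 < a0 := by linarith
  have ha0u' : a0 ≤ Cb * C1 / q ^ 3 := by rwa [mul_div_assoc]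
  have ha0L : a0 ≤ L / 4 := by
    refine ha0u'.trans ?_
    rw [div_le_div_iff₀ hq3 (by norm_num)]
    linarith
  have hRa : R ≤ a0 ^ (1 / 33 : ℝ) := by
    calc R = (R ^ (33 : ℕ)) ^ (1 / 33 : ℝ) := by
          rw [← Real.rpow_natCast, ← Real.rpow_mul (by linarith)]
          norm_num
      _ ≤ a0 ^ (1 / 33 : ℝ) := Real.rpow_le_rpow p5 (by linarith) (by norm_num)
  obtain ⟨a, b1, b2, b3, u, v, hS⟩ := hcov q h0.le (by linarith) a0 (by linarith) ha01 hRa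
    (hSt0.mono (by nlinarith) (by nlinarith)) (L / 4) ha0L
  have hsz : Real.exp a ^ (2 : ℝ) ≤ Real.exp (L / 2) := by
    rw [← Real.exp_mul]
    exact Real.exp_le_exp.2 (by linarith)
  have haL : L ≤ 4 * (5337 / 100) * a := by linarith
  have hapos : 0 < a := by linarith
  obtain ⟨x, y, k1, k2, k3, k4⟩ := haT a (by linarith) _ _ _ u v hS
  refine ⟨x, y, k1, k2, k3.trans hsz, k4.trans (Real.exp_le_exp.2 (neg_le_neg ?_))⟩
  have f1 : (q ^ 3 * L) ^ (1 / 33 : ℝ) * a0 ^ (1 / 33 : ℝ)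
      ≤ (Cb * C1) ^ (1 / 33 : ℝ) * L ^ (1 / 33 : ℝ) := by
    rw [← Real.mul_rpow (by positivity) ha0p.le, ← Real.mul_rpow (by positivity) hL0.le]
    refine Real.rpow_le_rpow (by positivity) ?_ (by norm_num)
    rw [le_div_iff₀ hq3] at ha0u'
    have := mul_le_mul_of_nonneg_right ha0u' hL0.le
    linarith
  have f2 : L ^ (1 + 1 / 33 : ℝ) ≤ (4 * (5337 / 100)) ^ (1 + 1 / 33 : ℝ) *
      a ^ (1 + 1 / 33 : ℝ) := by
    rw [← Real.mul_rpow (by norm_num) hapos.le]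
    exact Real.rpow_le_rpow hL0.le haL (by norm_num)
  have f3 : L * L ^ (1 / 33 : ℝ) = L ^ (1 + 1 / 33 : ℝ) := by
    rw [Real.rpow_add hL0, Real.rpow_one]
  have hd1 : 0 < a0 ^ (1 / 33 : ℝ) := Real.rpow_pos_of_pos ha0p _
  have hd2 : 0 < (Cb * C1) ^ (1 / 33 : ℝ) * (4 * (5337 / 100)) ^ (1 + 1 / 33 : ℝ) := by positivity
  rw [hc1, div_mul_eq_mul_div, div_mul_eq_mul_div, div_mul_eq_mul_div, div_le_div_iff₀ hd2 hd1]
  have hR0' : 0 < R := by linarith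
  calc R * L * (q ^ 3 * L) ^ (1 / 33 : ℝ) * a0 ^ (1 / 33 : ℝ)
      = R * L * ((q ^ 3 * L) ^ (1 / 33 : ℝ) * a0 ^ (1 / 33 : ℝ)) := by ring
    _ ≤ R * L * ((Cb * C1) ^ (1 / 33 : ℝ) * L ^ (1 / 33 : ℝ)) := by gcongr
    _ = R * (Cb * C1) ^ (1 / 33 : ℝ) * L ^ (1 + 1 / 33 : ℝ) := by rw [← f3]; ring
    _ ≤ R * (Cb * C1) ^ (1 / 33 : ℝ) *
          ((4 * (5337 / 100)) ^ (1 + 1 / 33 : ℝ) * a ^ (1 + 1 / 33 : ℝ)) := by gcongr
    _ = _ := by ring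

/-- **The lower bound for `q ^ 3 log n ≥ C`.** -/
theorem lower_cube : ∃ c C : ℝ, 0 < c ∧ ∀ (n : ℕ) (q : I), C ≤ (q : ℝ) ^ 3 * Real.log n →
    minTV q n ≤ ENNReal.ofReal (Real.exp
      (-(c * Real.log n * ((q : ℝ) ^ 3 * Real.log n) ^ (1 / 33 : ℝ)))) ∧
    ∀ s : ℝ, Real.exp (-(c * Real.log n * ((q : ℝ) ^ 3 * Real.log n) ^ (1 / 33 : ℝ))) ≤ s →
      (⌈Real.exp (c * Real.log n * ((q : ℝ) ^ 3 * Real.log n) ^ (1 / 33 : ℝ))⌉₊ : ℕ∞)
        ≤ Ts q s n := by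
  obtain ⟨C, c1, hC1, hc1, hcl⟩ := close_cube
  obtain ⟨c, hc⟩ : ∃ c : ℝ, c = min (c1 / 40) (1 / 24) := ⟨_, rfl⟩
  have hc0 : 0 < c := by rw [hc]; positivity
  have hca : c ≤ c1 / 40 := by rw [hc]; exact min_le_left _ _
  have hcb : c ≤ 1 / 24 := by rw [hc]; exact min_le_right _ _
  have h10 : 0 < 10 / c := by positivity
  refine ⟨c, 8 * C + 10 / c, hc0, fun n q hq => ?_⟩
  set L : ℝ := Real.log (n : ℝ) with hL
  have hL0' : 0 ≤ L := Real.log_natCast_nonneg n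
  have hq0 : 0 < (q : ℝ) := by
    rcases eq_or_lt_of_le q.2.1 with h | h
    · rw [← h] at hq
      norm_num at hq
      linarith
    · exact h
  have hq31 : (q : ℝ) ^ 3 ≤ 1 := pow_le_one₀ hq0.le q.2.2
  have hxL : (q : ℝ) ^ 3 * L ≤ L := mul_le_of_le_one_left hL0' hq31
  have hx1 : 1 ≤ (q : ℝ) ^ 3 * L := by linarith
  have hL1 : 1 ≤ L := hx1.trans hxL
  have hn0 : (0 : ℝ) < n := by
    rcases Nat.eq_zero_or_pos n with h | h
    · rw [hL, h, Nat.cast_zero, Real.log_zero] at hL1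
      linarith
    · exact_mod_cast h
  have hn : Real.exp L = n := Real.exp_log hn0
  set q₁ : I := ⟨(q : ℝ) / 2, by positivity, by linarith [q.2.2]⟩ with hq₁
  have hq1 : (q₁ : ℝ) = (q : ℝ) / 2 := rfl
  have hq1le : (q₁ : ℝ) ≤ q := by rw [hq1]; linarith
  have hx8 : (q₁ : ℝ) ^ 3 * L = (q : ℝ) ^ 3 * L / 8 := by rw [hq1]; ring
  have hclose := hcl q₁ (by rw [hq1]; positivity) (by rw [hq1]; linarith [q.2.2]) L
    (by rw [hx8]; linarith)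
  set x : ℝ := (q : ℝ) ^ 3 * L with hx
  have hx0 : 0 < x := by linarith
  have hxk : 1 ≤ x ^ (1 / 33 : ℝ) := Real.one_le_rpow hx1 (by norm_num)
  have hxk2 : x ^ (1 / 33 : ℝ) ≤ L := by
    refine le_trans ?_ hxL
    calc x ^ (1 / 33 : ℝ) ≤ x ^ (1 : ℝ) := Real.rpow_le_rpow_of_exponent_le hx1 (by norm_num)
      _ = x := Real.rpow_one x
  have h8 : x ^ (1 / 33 : ℝ) / 8 ≤ (x / 8) ^ (1 / 33 : ℝ) := by
    rw [Real.div_rpow hx0.le (by norm_num)]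
    refine div_le_div_of_nonneg_left (by linarith) (by positivity) ?_
    calc (8 : ℝ) ^ (1 / 33 : ℝ) ≤ 8 ^ (1 : ℝ) :=
          Real.rpow_le_rpow_of_exponent_le (by norm_num) (by norm_num)
      _ = 8 := Real.rpow_one _
  rw [hx8] at hclose
  set B : ℝ := c * L * x ^ (1 / 33 : ℝ) with hB
  have hLx : 0 ≤ L * x ^ (1 / 33 : ℝ) := by positivity
  have hδ : Real.exp (-(c1 * L * (x / 8) ^ (1 / 33 : ℝ))) ≤ Real.exp (-(5 * B)) := by
    refine Real.exp_le_exp.2 (neg_le_neg ?_)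
    have g1 : c1 * L * (x ^ (1 / 33 : ℝ) / 8) ≤ c1 * L * (x / 8) ^ (1 / 33 : ℝ) :=
      mul_le_mul_of_nonneg_left h8 (by positivity)
    have g2 : c * (L * x ^ (1 / 33 : ℝ)) ≤ c1 / 40 * (L * x ^ (1 / 33 : ℝ)) :=
      mul_le_mul_of_nonneg_right hca hLx
    rw [hB]
    linarith
  have hB10 : 10 ≤ B := by
    have g1 : 10 / c ≤ L := by linarith
    rw [div_le_iff₀ hc0] at g1
    have g2 : c * L * 1 ≤ c * L * x ^ (1 / 33 : ℝ) :=
      mul_le_mul_of_nonneg_left hxk (by positivity)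
    rw [hB]
    linarith
  have hBL : 24 * B ≤ L ^ 2 := by
    have g1 : L * x ^ (1 / 33 : ℝ) ≤ L * L := mul_le_mul_of_nonneg_left hxk2 hL0'
    have g2 : c * (L * x ^ (1 / 33 : ℝ)) ≤ 1 / 24 * (L * x ^ (1 / 33 : ℝ)) :=
      mul_le_mul_of_nonneg_right hcb hLx
    rw [hB]
    linarith
  refine ⟨?_, fun s hs => ?_⟩
  · refine (minTV_le_of_close hq1le (by rw [hq1]; linarith [q.2.2]) hclose ?_).trans
      (ENNReal.ofReal_le_ofReal (hδ.trans (Real.exp_le_exp.2 (by linarith))))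
    rw [← hn]
    exact Real.exp_le_exp.2 (by linarith)
  · exact (Ts_of_close q₁ hn hclose hδ hB10 hBL hL0' hs).trans (Ts_mono_q hq1le s n)

end Vale.Agent.N321
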