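import Vale.Agent.N321.Words

/-!
The long round (scale `N ^ 4.0008`) and the short round (scale `N ^ 3.334`).
-/

namespace Vale.Agent.N321

open Filter Topology Real Vale.Agent.P321
open Vale.Agent.P321.LB2 hiding Num NumOK TStepU tstep_of tstepU norm_W_le RoundU
open Vale.Agent.P321.H181 hiding hp g1 G1 g2 Gb_le_hp Gc_le G1_le G2_le sizes kill_factor kill_prod
  wc wc' wu wv W_wc W_wc' W_wu W_wv_sub wc_length wu_length wu_ne kill_gen dc_small near_c near_3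
  letters bounds round_point roundU_of_tstepU

/-- numbers of letters -/
lemma letters {N : ℝ} {n : ℕ} (hB : Big N) (hnr : (n : ℝ) ≤ N ^ (14001 / 10000 : ℝ))
    (hh7 : 2 * (hp N : ℝ) + 1 ≤ N ^ (160031 / 100000 : ℝ)) :
    ((n * (2 ^ lv N * (2 * hp N + 1)) : ℕ) : ℝ) ≤ N ^ (300042 / 100000 : ℝ) ∧
    ((n * (2 ^ lv N * (2 * hp N + 1) * 2 ^ lv N) : ℕ) : ℝ) ≤ N ^ (300043 / 100000 : ℝ) ∧
    (n : ℝ) ≤ ((n * (2 ^ lv N * (2 * hp N + 1)) : ℕ) : ℝ) ∧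
    (n : ℝ) ≤ ((n * (2 ^ lv N * (2 * hp N + 1) * 2 ^ lv N) : ℕ) : ℝ) := by
  have hN0 := hB.pos
  have hN1 := hB.one_le
  have q1 : 1 ≤ 2 ^ lv N := Nat.one_le_two_pow
  refine ⟨?_, ?_, ?_, ?_⟩
  · push_cast
    refine (mulP hN0 (by positivity) hnr (mulP hN0 (by positivity) hB.two hh7)).trans
      (powP hN1 (by norm_num))
  · push_cast
    refine (mulP hN0 (by positivity) hnr (mulP hN0 (by positivity)
      (mulP hN0 (by positivity) hB.two hh7) hB.two)).trans (powP hN1 (by norm_num))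
  · have : n * 1 ≤ n * (2 ^ lv N * (2 * hp N + 1)) :=
      Nat.mul_le_mul_left _ (Nat.one_le_iff_ne_zero.2 (by positivity))
    rw [mul_one] at this
    exact_mod_cast this
  · have : n * 1 ≤ n * (2 ^ lv N * (2 * hp N + 1) * 2 ^ lv N) :=
      Nat.mul_le_mul_left _ (Nat.one_le_iff_ne_zero.2 (by positivity))
    rw [mul_one] at this
    exact_mod_cast this

/-- the two context bounds of the new pair -/
lemma bounds {N δ C ε E1 E2 κ : ℝ} {Z D : Al} (hB : Big N) (hδ : 0 ≤ δ) (hδ1 : δ ≤ 1 / 10000)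
    (hC : 0 ≤ C) (hε : 0 ≤ ε)
    (hE2 : 0 < E2) (hE21 : E2 ≤ E1) (hE12 : E1 ^ 2 ≤ E2) (hE2l : E2 ≤ 1)
    (hκ0 : 0 ≤ κ) (hκ : κ ≤ E2 ^ 10)
    (pZ : pn Z ≤ 1) (pV : pn (Z + D) ≤ 1) (pD : pn D ≤ N ^ C * E1 ^ 2)
    (hf1 : pn (Z ^ (2 ^ lv N * Gb N δ) * D * Z ^ (2 ^ lv N * Gb N δ)) ≤ N ^ C * (E1 ^ 2 * E2))
    (kill1 : pn (Z ^ (2 ^ lv N * (lv N * g1 N)) * tmL Z D (lv N) *
      Z ^ (2 ^ lv N * (lv N * g1 N))) ≤ κ * pn D)
    (kill2 : pn (zc Z D (lv N) (hp N) ^ (2 ^ lv N * (lv N * g2 N)) *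
      tmL (zc Z D (lv N) (hp N)) (dc Z D (lv N) (hp N)) (lv N) *
      zc Z D (lv N) (hp N) ^ (2 ^ lv N * (lv N * g2 N))) ≤ κ * pn (dc Z D (lv N) (hp N))) :
    (∀ M : ℕ, (N ^ (40008 / 10000 : ℝ)) ^ (1 / 5 + ε) ≤ M →
      pn (u3 Z D (lv N) (hp N) ^ M * d3 Z D (lv N) (hp N) * u3 Z D (lv N) (hp N) ^ M) ≤
        N ^ (4 * C + 15) * E1 ^ 4) ∧
    (∀ M : ℕ, (N ^ (40008 / 10000 : ℝ)) ^ (1 + ε) ≤ M →
      pn (u3 Z D (lv N) (hp N) ^ M * d3 Z D (lv N) (hp N) * u3 Z D (lv N) (hp N) ^ M) ≤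
        N ^ (4 * C + 15) * E1 ^ 4 * E2 ^ 2) := by
  have hN0 := hB.pos
  have hN1 := hB.one_le
  have hN100 := hB.two_le
  have p1 : pn 1 ≤ 1 := norm_one_le
  have hc1 : 1 ≤ N ^ C := one_le_rpow hN1 hC
  have pD0 : 0 ≤ pn D := apply_nonneg pn D
  obtain ⟨sz1, sz2, sz3, sz4, sz5, sz6, -⟩ := sizes hB hδ hδ1
  have a20 : (0:ℝ) ≤ 2 ^ lv N := by positivity
  have a40 : (0:ℝ) ≤ 4 ^ lv N := by positivity
  have hdc := dc_le p1 pZ pV (lv N) (hp N) (Gb N δ) (Gb_le_hp hB hδ1)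
  have pdC0 : 0 ≤ pn (dc Z D (lv N) (hp N)) := apply_nonneg pn _
  have key1 : pn (dc Z D (lv N) (hp N)) ≤ N ^ 4 * (N ^ C) ^ 2 * (E1 ^ 2 * E2) :=
    arith1 hN100 hc1 hE2 hE12 sz1 sz2 a40 sz3 pD0 pD (apply_nonneg pn _) hf1 hdc
  have hcC : N ^ (4 * C + 15) = N ^ 15 * (N ^ C) ^ 4 := by
    rw [add_comm, rpow_add hN0, ← rpow_natCast, ← rpow_natCast (N ^ C) 4, ← rpow_mul hN0.le]
    norm_num [mul_comm]
  constructor
  · intro M hM
    have t := d3_short p1 pZ pV (lv N) (hp N) (G1 N) (lv N * g1 N) M (G1_le hB hε hM) (Gc_le hB)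
    refine t.trans ?_
    have st : (2:ℝ) ^ lv N * (pn (Z ^ (2 ^ lv N * (lv N * g1 N)) * tmL Z D (lv N) *
        Z ^ (2 ^ lv N * (lv N * g1 N))) +
        (2 * ((lv N * g1 N : ℕ) : ℝ) + 1) * (4 ^ lv N * pn D ^ 2)) ≤
        2 ^ lv N * (κ * pn D + (2 * ((lv N * g1 N : ℕ) : ℝ) + 1) * (4 ^ lv N * pn D ^ 2)) :=
      mul_le_mul_of_nonneg_left (add_le_add kill1 le_rfl) a20
    refine (add_le_add st le_rfl).trans ?_
    have ar := arith2 (E1 := E1) (E2 := E2) hN100 hc1 hE2 hE21 hE2l hκ0 hκ sz1 sz2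
      a20 a40 sz4 (by positivity) sz5 (by positivity) pD0 pD pdC0 key1
    refine ar.trans ?_
    rw [hcC]
    have h12 : N ^ 12 ≤ N ^ 15 := pow_le_pow_right₀ hN1 (by norm_num)
    have h40 : 0 ≤ (N ^ C) ^ 4 := by positivity
    have h41 : 0 ≤ E1 ^ 4 := by positivity
    exact mul_le_mul_of_nonneg_right (mul_le_mul_of_nonneg_right h12 h40) h41
  · intro M hM
    have t := d3_long p1 pZ pV (lv N) (hp N) (lv N * g2 N) M (G2_le hB hε hM)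
    refine t.trans ((add_le_add kill2 le_rfl).trans ?_)
    have ar := arith3 (E1 := E1) (E2 := E2) hN100 hc1 hE2 hE21 hE2l hκ0 hκ sz2
      a40 sz6 (by positivity) pdC0 key1
    refine ar.trans (le_of_eq ?_)
    rw [hcC]
    ring

/-- the round at one scale, for one `q` -/
theorem round_point {N q ε δ C R0 E1 E2 : ℝ} {u v x x' : List Bool} {n : ℕ}
    (h0 : 0 ≤ q) (h1 : q ≤ 1) (hε : 0 < ε)
    (hε1 : ε ≤ 1 / 500000) (hδ : 0 ≤ δ) (hδ1 : δ ≤ 1 / 10000) (hC : 0 ≤ C) (hB : Big N) (hKl : Kill N)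
    (hNk : ∀ S : ℝ, N ≤ S → ∀ (Y : Al) (K : ℕ), MA.Prob Y →
      L1Str.Slip (MA.str (G := FreeMonoid Bool)) Y K → (K : ℝ) ≤ S ^ (1 + ε) →
      ∀ t : ℕ, 1 ≤ t → (t : ℝ) ≤ S ^ (10 : ℝ) → ‖(1 - Y) * Y ^ t‖ ≤ S ^ ε * Real.sqrt (S / t))
    (hNi : ∀ (Y Z : Al) (K n : ℕ), MA.Prob Y → ‖Z‖ ≤ 1 →
      L1Str.Slip (MA.str (G := FreeMonoid Bool)) Y K → (K : ℝ) ≤ N ^ (1 + ε) →
      N ^ (1 / 2 : ℝ) ≤ n → (n : ℝ) ≤ N ^ (50 : ℝ) → ‖Z - Y ^ n‖ ≤ N ^ (-100 : ℝ) →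
      ∃ K' : ℕ, L1Str.Slip (MA.str (G := FreeMonoid Bool)) Z K' ∧ (K' : ℝ) ≤ (N * n) ^ (1 + ε))
    (hSt : St q ε N E1 E2 u v) (hE12 : E1 ^ 2 ≤ E2) (hE21 : E2 ≤ E1)
    (hE1 : E1 ≤ N ^ (-(max R0 (C + 200))))
    (hE2 : Real.exp (-(Real.log N) ^ (1 + 1 / 16 : ℝ)) ≤ E2)
    (hO : TOut q δ N C E1 E2 u n x x') :
    ∃ (N' : ℝ) (u' v' : List Bool), N ^ (4 : ℝ) ≤ N' ∧ N' ≤ N ^ (40008 / 10000 : ℝ) ∧
      St q ε N' (N ^ (4 * C + 15) * E1 ^ 4) (N ^ (4 * C + 15) * E1 ^ 4 * E2 ^ 2) u' v' := by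
  have hN0 : 0 < N := hB.pos
  have hN1 : 1 ≤ N := hB.one_le
  have hE1b : E1 ≤ N ^ (-(C + 200)) :=
    hE1.trans (powP hN1 (by linarith [le_max_right R0 (C + 200)]))
  have hE2p : 0 < E2 := (exp_pos _).trans_le hE2
  have hE1p : 0 < E1 := hE2p.trans_le hE21
  have hE1l : E1 ≤ 1 := hE1b.trans (rpow_le_one_of_one_le_of_nonpos hN1 (by linarith))
  have hE2l : E2 ≤ 1 := hE21.trans hE1l
  have pZ : pn (W q x) ≤ 1 := norm_W_le h0 h1 x
  have pV : pn (W q x + (W q x' - W q x)) ≤ 1 := by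
    rw [add_sub_cancel]; exact norm_W_le h0 h1 x'
  have pY : pn (W q u) ≤ 1 := norm_W_le h0 h1 u
  have pD : pn (W q x' - W q x) ≤ N ^ C * E1 ^ 2 := hO.f0
  obtain ⟨sz1, sz2, -, -, -, -, hh7⟩ := sizes hB hδ hδ1
  have hh2 : 2 * (hp N : ℝ) + 1 ≤ N ^ (2 : ℝ) := hh7.trans (powP hN1 (by norm_num))
  have small : N ^ C * E1 ≤ N ^ (-200 : ℝ) := by
    calc N ^ C * E1 ≤ N ^ C * N ^ (-(C + 200)) := mul_le_mul_of_nonneg_left hE1b (by positivity)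
      _ = N ^ (-200 : ℝ) := by rw [← rpow_add hN0]; congr 1; ring
  have pDs : pn (W q x' - W q x) ≤ N ^ (-200 : ℝ) := by
    refine pD.trans (le_trans ?_ small)
    have : E1 ^ 2 ≤ E1 := by nlinarith
    exact mul_le_mul_of_nonneg_left this (by positivity)
  have nearZ : pn (W q x - W q u ^ n) ≤ N ^ (-200 : ℝ) := hO.near.trans small
  have hnr : (n : ℝ) ≤ N ^ (14001 / 10000 : ℝ) := hO.hi.trans (powP hN1 (by linarith))
  have hnlo : N ^ (7 / 5 : ℝ) ≤ n := hO.lo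
  have hn1 : (1:ℝ) ≤ n := (one_le_rpow hN1 (by norm_num)).trans hnlo
  have hn0 : (0:ℝ) ≤ n := by linarith
  obtain ⟨hncr, hn3r, hnc1, hn31⟩ := letters hB hnr hh7
  have hlow : N ^ (1 / 2 : ℝ) ≤ n := (powP hN1 (by norm_num)).trans hnlo
  obtain ⟨K, hK, hKb⟩ := hSt.slip
  have PY : MA.Prob (W q u) := W_prob h0 h1 u
  have PZ : MA.Prob (W q x) := W_prob h0 h1 x
  have hN1' : N ≤ N ^ (1:ℝ) := by rw [rpow_one]
  -- first kill
  obtain ⟨K1, hK1, hK1b⟩ := hNi (W q u) (W q x) K n PY pZ hK hKb hlow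
    (hnr.trans (powP hN1 (by norm_num))) (nearZ.trans (powP hN1 (by norm_num)))
  have S1N : N ≤ N * n := le_mul_of_one_le_right hN0.le hn1
  have S1b : N * n ≤ N ^ (24001 / 10000 : ℝ) :=
    (mulP hN0 hn0 hN1' hnr).trans (powP hN1 (by norm_num))
  have g1lo : N ^ (24004 / 10000 : ℝ) ≤ g1 N := Nat.le_ceil _
  have g1one : 1 ≤ g1 N := by
    have : (1:ℝ) ≤ g1 N := (one_le_rpow hN1 (by norm_num)).trans g1lo
    exact_mod_cast this
  have s1 := hNk (N * n) S1N (W q x) K1 PZ hK1 hK1b (g1 N) g1one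
    ((leC hB (by norm_num) (by norm_num) : (g1 N : ℝ) ≤ N ^ (10:ℝ)).trans
      (rpow_le_rpow hN0.le S1N (by norm_num)))
  have kill1 := kill_gen (D := W q x' - W q x) hB hKl (hN0.trans_le S1N) S1b g1lo hε.le s1
    (by linarith) pZ
  -- second kill
  have pzC : pn (zc (W q x) (W q x' - W q x) (lv N) (hp N)) ≤ 1 :=
    zc_le norm_one_le pZ pV _ _
  have PzC : MA.Prob (zc (W q x) (W q x' - W q x) (lv N) (hp N)) := by
    have := W_prob h0 h1 (wc N (hp N) x x')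
    rwa [W_wc] at this
  have pdCs := dc_small (h := hp N) hB pZ pV sz1 sz2 pDs
  have nearC := near_c hB pZ pV pY hh2 pDs nearZ
  obtain ⟨K2, hK2, hK2b⟩ := hNi (W q u) _ K _ PY pzC hK hKb (hlow.trans hnc1)
    (hncr.trans (powP hN1 (by norm_num))) (nearC.trans (powP hN1 (by norm_num)))
  have S2N : N ≤ N * ((n * (2 ^ lv N * (2 * hp N + 1)) : ℕ) : ℝ) :=
    le_mul_of_one_le_right hN0.le (hn1.trans hnc1)
  have S2b : N * ((n * (2 ^ lv N * (2 * hp N + 1)) : ℕ) : ℝ) ≤ N ^ (400042 / 100000 : ℝ) :=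
    (mulP hN0 (Nat.cast_nonneg _) hN1' hncr).trans (powP hN1 (by norm_num))
  have g2lo : N ^ (40007 / 10000 : ℝ) ≤ g2 N := Nat.le_ceil _
  have g2one : 1 ≤ g2 N := by
    have : (1:ℝ) ≤ g2 N := (one_le_rpow hN1 (by norm_num)).trans g2lo
    exact_mod_cast this
  have s2 := hNk _ S2N _ K2 PzC hK2 hK2b (g2 N) g2one
    ((leC hB (by norm_num) (by norm_num) : (g2 N : ℝ) ≤ N ^ (10:ℝ)).trans
      (rpow_le_rpow hN0.le S2N (by norm_num)))
  have kill2 := kill_gen (D := dc (W q x) (W q x' - W q x) (lv N) (hp N)) hB hKl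
    (hN0.trans_le S2N) S2b g2lo hε.le s2 (by linarith) pzC
  -- slip of the new background
  have pu3 : ‖u3 (W q x) (W q x' - W q x) (lv N) (hp N)‖ ≤ 1 := by
    have := norm_W_le h0 h1 (wu N (hp N) x x')
    rwa [W_wu] at this
  obtain ⟨K3, hK3, hK3b⟩ := hNi (W q u) _ K _ PY pu3 hK hKb
    (hlow.trans hn31) (hn3r.trans (powP hN1 (by norm_num)))
    (near_3 hB pZ pV pY hh2 pDs nearZ pdCs)
  have S3b : N * ((n * (2 ^ lv N * (2 * hp N + 1) * 2 ^ lv N) : ℕ) : ℝ) ≤ N ^ (40008 / 10000 : ℝ) :=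
    (mulP hN0 (Nat.cast_nonneg _) hN1' hn3r).trans (powP hN1 (by norm_num))
  obtain ⟨lu, lw⟩ := wu_length (N := N) (h := hp N) hO.len
  have hκE : exp (-(10 * (log N) ^ (1 + 1 / 16 : ℝ))) ≤ E2 ^ 10 := by
    have : exp (-(10 * (log N) ^ (1 + 1 / 16 : ℝ))) = exp (-(log N) ^ (1 + 1 / 16 : ℝ)) ^ 10 := by
      rw [← exp_nat_mul]; congr 1; push_cast; ring
    rw [this]
    exact pow_le_pow_left₀ (exp_pos _).le hE2 10
  obtain ⟨B1, B2⟩ := bounds hB hδ hδ1 hC hε.le hE2p hE21 hE12 hE2l (exp_pos _).le hκE pZ pV pD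
    (hO.f1 _ le_Gb) kill1 kill2
  refine ⟨N ^ (40008 / 10000 : ℝ), wu N (hp N) x x', wv N (hp N) x x', powP hN1 (by norm_num),
    powP hN1 (by norm_num), ⟨wu_ne hO.len hO.ne, by rw [lu, lw], ?_,
    ⟨K3, by rw [W_wu]; exact hK3, hK3b.trans (rpow_le_rpow (by positivity) S3b (by linarith))⟩,
    ?_, ?_⟩⟩
  · rw [lu]
    have e : ((2 ^ lv N * ((2 * hp N + 1) * (2 ^ lv N * x.length)) : ℕ) : ℝ) =
        ((n * (2 ^ lv N * (2 * hp N + 1) * 2 ^ lv N) : ℕ) : ℝ) * u.length := by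
      rw [hO.len_eq]; push_cast; ring
    rw [e]
    refine le_trans ?_ S3b
    rw [mul_comm]
    exact mul_le_mul_of_nonneg_right hSt.hi (Nat.cast_nonneg _)
  · intro M hM
    rw [W_wv_sub, W_wu]
    exact B1 M hM
  · intro M hM
    rw [W_wv_sub, W_wu]
    exact B2 M hM

/-- the short round at one scale, for one `q` -/
theorem short_point {N q ε δ C R0 E1 E2 : ℝ} {u v x x' : List Bool} {n : ℕ}
    (h0 : 0 ≤ q) (h1 : q ≤ 1) (hε : 0 < ε)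
    (hε1 : ε ≤ 1 / 500000) (hδ : 0 ≤ δ) (hδ1 : δ ≤ 1 / 10000) (hC : 0 ≤ C) (hB : Big N) (hKl : Kill N)
    (hNk : ∀ S : ℝ, N ≤ S → ∀ (Y : Al) (K : ℕ), MA.Prob Y →
      L1Str.Slip (MA.str (G := FreeMonoid Bool)) Y K → (K : ℝ) ≤ S ^ (1 + ε) →
      ∀ t : ℕ, 1 ≤ t → (t : ℝ) ≤ S ^ (10 : ℝ) → ‖(1 - Y) * Y ^ t‖ ≤ S ^ ε * Real.sqrt (S / t))
    (hNi : ∀ (Y Z : Al) (K n : ℕ), MA.Prob Y → ‖Z‖ ≤ 1 →
      L1Str.Slip (MA.str (G := FreeMonoid Bool)) Y K → (K : ℝ) ≤ N ^ (1 + ε) →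
      N ^ (1 / 2 : ℝ) ≤ n → (n : ℝ) ≤ N ^ (50 : ℝ) → ‖Z - Y ^ n‖ ≤ N ^ (-100 : ℝ) →
      ∃ K' : ℕ, L1Str.Slip (MA.str (G := FreeMonoid Bool)) Z K' ∧ (K' : ℝ) ≤ (N * n) ^ (1 + ε))
    (hSt : St q ε N E1 E2 u v) (hE12 : E1 ^ 2 ≤ E2) (hE21 : E2 ≤ E1)
    (hE1 : E1 ≤ N ^ (-(max R0 (C + 200))))
    (hE2 : Real.exp (-(Real.log N) ^ (1 + 1 / 16 : ℝ)) ≤ E2)
    (hO : TOut q δ N C E1 E2 u n x x') :
    ∃ u' v' : List Bool, St q ε (N ^ (3334 / 1000 : ℝ)) (N ^ (4 * C + 15) * E1 ^ 2 * E2)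
      (N ^ (4 * C + 15) * E1 ^ 4) u' v' := by
  have hN0 : 0 < N := hB.pos
  have hN1 : 1 ≤ N := hB.one_le
  have hE1b : E1 ≤ N ^ (-(C + 200)) :=
    hE1.trans (powP hN1 (by linarith [le_max_right R0 (C + 200)]))
  have hE2p : 0 < E2 := (exp_pos _).trans_le hE2
  have hE1p : 0 < E1 := hE2p.trans_le hE21
  have hE1l : E1 ≤ 1 := hE1b.trans (rpow_le_one_of_one_le_of_nonpos hN1 (by linarith))
  have hE2l : E2 ≤ 1 := hE21.trans hE1l
  have pZ : pn (W q x) ≤ 1 := norm_W_le h0 h1 x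
  have pV : pn (W q x + (W q x' - W q x)) ≤ 1 := by
    rw [add_sub_cancel]; exact norm_W_le h0 h1 x'
  have pY : pn (W q u) ≤ 1 := norm_W_le h0 h1 u
  have pD : pn (W q x' - W q x) ≤ N ^ C * E1 ^ 2 := hO.f0
  obtain ⟨sz1, sz2, sz3, sz4, -, -, -⟩ := sizes hB hδ hδ1
  have hh7 : 2 * (hq N : ℝ) + 1 ≤ N ^ (93351 / 100000 : ℝ) := leC5 hB (by norm_num) (by norm_num)
  have hh2 : 2 * (hq N : ℝ) + 1 ≤ N ^ (2 : ℝ) := hh7.trans (powP hN1 (by norm_num))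
  have small : N ^ C * E1 ≤ N ^ (-200 : ℝ) := by
    calc N ^ C * E1 ≤ N ^ C * N ^ (-(C + 200)) := mul_le_mul_of_nonneg_left hE1b (by positivity)
      _ = N ^ (-200 : ℝ) := by rw [← rpow_add hN0]; congr 1; ring
  have pDs : pn (W q x' - W q x) ≤ N ^ (-200 : ℝ) := by
    refine pD.trans (le_trans ?_ small)
    have : E1 ^ 2 ≤ E1 := by nlinarith
    exact mul_le_mul_of_nonneg_left this (by positivity)
  have nearZ : pn (W q x - W q u ^ n) ≤ N ^ (-200 : ℝ) := hO.near.trans small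
  have hnr : (n : ℝ) ≤ N ^ (14001 / 10000 : ℝ) := hO.hi.trans (powP hN1 (by linarith))
  have hnlo : N ^ (7 / 5 : ℝ) ≤ n := hO.lo
  have hn1 : (1:ℝ) ≤ n := (one_le_rpow hN1 (by norm_num)).trans hnlo
  have hn0 : (0:ℝ) ≤ n := by linarith
  have hncr : ((n * (2 ^ lv N * (2 * hq N + 1)) : ℕ) : ℝ) ≤ N ^ (2334 / 1000 : ℝ) := by
    push_cast
    exact (mulP hN0 (by positivity) hnr (mulP hN0 (by positivity) hB.two hh7)).trans
      (powP hN1 (by norm_num))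
  have hnc1 : (n : ℝ) ≤ ((n * (2 ^ lv N * (2 * hq N + 1)) : ℕ) : ℝ) := by
    have : n * 1 ≤ n * (2 ^ lv N * (2 * hq N + 1)) :=
      Nat.mul_le_mul_left _ (Nat.one_le_iff_ne_zero.2 (by positivity))
    rw [mul_one] at this
    exact_mod_cast this
  have hlow : N ^ (1 / 2 : ℝ) ≤ n := (powP hN1 (by norm_num)).trans hnlo
  obtain ⟨K, hK, hKb⟩ := hSt.slip
  have PY : MA.Prob (W q u) := W_prob h0 h1 u
  have PZ : MA.Prob (W q x) := W_prob h0 h1 x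
  have hN1' : N ≤ N ^ (1:ℝ) := by rw [rpow_one]
  -- first kill
  obtain ⟨K1, hK1, hK1b⟩ := hNi (W q u) (W q x) K n PY pZ hK hKb hlow
    (hnr.trans (powP hN1 (by norm_num))) (nearZ.trans (powP hN1 (by norm_num)))
  have S1N : N ≤ N * n := le_mul_of_one_le_right hN0.le hn1
  have S1b : N * n ≤ N ^ (24001 / 10000 : ℝ) :=
    (mulP hN0 hn0 hN1' hnr).trans (powP hN1 (by norm_num))
  have g1lo : N ^ (24004 / 10000 : ℝ) ≤ g1 N := Nat.le_ceil _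
  have g1one : 1 ≤ g1 N := by
    have : (1:ℝ) ≤ g1 N := (one_le_rpow hN1 (by norm_num)).trans g1lo
    exact_mod_cast this
  have s1 := hNk (N * n) S1N (W q x) K1 PZ hK1 hK1b (g1 N) g1one
    ((leC hB (by norm_num) (by norm_num) : (g1 N : ℝ) ≤ N ^ (10:ℝ)).trans
      (rpow_le_rpow hN0.le S1N (by norm_num)))
  have kill1 := kill_gen (D := W q x' - W q x) hB hKl (hN0.trans_le S1N) S1b g1lo hε.le s1
    (by linarith) pZ
  -- slip of the new background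
  have pzC : pn (zc (W q x) (W q x' - W q x) (lv N) (hq N)) ≤ 1 :=
    zc_le norm_one_le pZ pV _ _
  have nearC := near_c hB pZ pV pY hh2 pDs nearZ
  obtain ⟨K2, hK2, hK2b⟩ := hNi (W q u) _ K _ PY pzC hK hKb (hlow.trans hnc1)
    (hncr.trans (powP hN1 (by norm_num))) (nearC.trans (powP hN1 (by norm_num)))
  have S2b : N * ((n * (2 ^ lv N * (2 * hq N + 1)) : ℕ) : ℝ) ≤ N ^ (3334 / 1000 : ℝ) :=
    (mulP hN0 (Nat.cast_nonneg _) hN1' hncr).trans (powP hN1 (by norm_num))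
  obtain ⟨lu, lw⟩ := wc_length (N := N) (h := hq N) hO.len
  have hκE : exp (-(10 * (log N) ^ (1 + 1 / 16 : ℝ))) ≤ E2 ^ 10 := by
    have : exp (-(10 * (log N) ^ (1 + 1 / 16 : ℝ))) = exp (-(log N) ^ (1 + 1 / 16 : ℝ)) ^ 10 := by
      rw [← exp_nat_mul]; congr 1; push_cast; ring
    rw [this]
    exact pow_le_pow_left₀ (exp_pos _).le hE2 10
  have hN100 := hB.two_le
  have p1 : pn 1 ≤ 1 := norm_one_le
  have hc1 : 1 ≤ N ^ C := one_le_rpow hN1 hC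
  have pD0 : 0 ≤ pn (W q x' - W q x) := apply_nonneg pn _
  have a40 : (0:ℝ) ≤ 4 ^ lv N := by positivity
  have hcC : N ^ (4 * C + 15) = N ^ 15 * (N ^ C) ^ 4 := by
    rw [add_comm, rpow_add hN0, ← rpow_natCast, ← rpow_natCast (N ^ C) 4, ← rpow_mul hN0.le]
    norm_num [mul_comm]
  have ectx : ∀ M : ℕ, W q (wc N (hq N) x x') ^ M *
      (W q (wc' N (hq N) x x') - W q (wc N (hq N) x x')) * W q (wc N (hq N) x x') ^ M =
      dc (W q x) (W q x' - W q x) (lv N) ((2 * hq N + 1) * M + hq N) := by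
    intro M
    rw [W_wc', W_wc, add_sub_cancel_left, zc, ← pow_mul, dc, pow_ctx, dc]
  have hlong : ∀ (M G : ℕ) (y : ℝ), (N ^ (3334 / 1000 : ℝ)) ^ y ≤ M → 1 / 5 ≤ y →
      (G : ℝ) ≤ N ^ (9335 / 10000 + 3334 / 1000 * y) → G ≤ (2 * hq N + 1) * M + hq N := by
    intro M G y hM hy hG
    rw [← rpow_mul hN0.le] at hM
    rw [rpow_add hN0] at hG
    have b1 : N ^ (9335 / 10000 : ℝ) ≤ hq N := Nat.le_ceil _
    have b2 : (G : ℝ) ≤ (hq N : ℝ) * M :=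
      hG.trans (mul_le_mul b1 hM (rpow_nonneg hN0.le _) (Nat.cast_nonneg _))
    have b3 : G ≤ hq N * M := by exact_mod_cast b2
    have b4 : hq N * M ≤ (2 * hq N + 1) * M := Nat.mul_le_mul_right _ (by omega)
    omega
  refine ⟨wc N (hq N) x x', wc' N (hq N) x x', ⟨padW_ne (tmW_ne hO.len hO.ne (lv N)) (hq N),
    by rw [lu, lw], ?_,
    ⟨K2, by rw [W_wc]; exact hK2, hK2b.trans (rpow_le_rpow (by positivity) S2b (by linarith))⟩,
    ?_, ?_⟩⟩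
  · rw [lu]
    have e : (((2 * hq N + 1) * (2 ^ lv N * x.length) : ℕ) : ℝ) =
        ((n * (2 ^ lv N * (2 * hq N + 1)) : ℕ) : ℝ) * u.length := by
      rw [hO.len_eq]; push_cast; ring
    rw [e]
    refine le_trans ?_ S2b
    rw [mul_comm]
    exact mul_le_mul_of_nonneg_right hSt.hi (Nat.cast_nonneg _)
  · intro M hM
    rw [ectx]
    have hG : Gb N δ ≤ (2 * hq N + 1) * M + hq N :=
      hlong M _ _ hM (by linarith) (leC hB (by linarith) (by linarith))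
    have hdc := dc_le p1 pZ pV (lv N) _ (Gb N δ) hG
    refine (arith1 hN100 hc1 hE2p hE12 sz1 sz2 a40 sz3 pD0 pD (apply_nonneg pn _)
      (hO.f1 _ le_Gb) hdc).trans ?_
    rw [hcC, mul_assoc (N ^ 15 * _)]
    refine mul_le_mul_of_nonneg_right ?_ (by positivity)
    exact mul_le_mul (pow_le_pow_right₀ hN1 (by norm_num)) (pow_le_pow_right₀ hc1 (by norm_num))
      (by positivity) (by positivity)
  · intro M hM
    rw [ectx]
    have hG : lv N * g1 N ≤ (2 * hq N + 1) * M + hq N := by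
      refine hlong M _ _ hM (by linarith) ?_
      push_cast
      exact (mulP hN0 (by positivity) hB.lvb (leC hB (by norm_num) le_rfl)).trans
        (powP hN1 (by linarith))
    have t := d2_long p1 pZ pV (lv N) _ _ hG
    refine le_trans t ((add_le_add kill1 le_rfl).trans ?_)
    have ar := arith2 (E1 := E1) (E2 := E2) (a2 := 1) (g1' := 0) (dc := 0) hN100 hc1 hE2p hE21 hE2l
      (exp_pos _).le hκE hN1 sz2 zero_le_one a40 sz4 (by positivity) hN0.le le_rfl pD0 pD le_rfl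
      (by positivity)
    rw [one_mul, zero_mul, add_zero] at ar
    refine ar.trans ?_
    rw [hcC]
    have h12 : N ^ 12 ≤ N ^ 15 := pow_le_pow_right₀ hN1 (by norm_num)
    exact mul_le_mul_of_nonneg_right (mul_le_mul_of_nonneg_right h12 (by positivity))
      (by positivity)

/-- **Both rounds, in logarithmic form and uniformly in `q`.** -/
theorem rounds : ∀ᶠ a : ℝ in atTop, ∀ q : ℝ, 0 ≤ q → q ≤ 1 → ∀ b1 b2 : ℝ,
    StL q (1 / 500000) a b1 b2 → b2 ≤ 2 * b1 → b1 ≤ b2 → 240 * a ≤ b1 →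
    b2 ≤ a ^ (1 + 1 / 16 : ℝ) →
    (∃ a' : ℝ, 4 * a ≤ a' ∧ a' ≤ 40008 / 10000 * a ∧
      StL q (1 / 500000) a' (4 * b1 - 175 * a) (4 * b1 + 2 * b2 - 175 * a)) ∧
    StL q (1 / 500000) (3334 / 1000 * a) (2 * b1 + b2 - 175 * a) (4 * b1 - 175 * a) := by
  obtain ⟨Nk, hNk⟩ := eventually_atTop.1 (ev_kap (1 / 500000) 10 (by norm_num))
  filter_upwards [tendsto_exp_atTop.eventually (tstepU.and (eventually_big.and (ev_kill.and
    ((eventually_ge_atTop Nk).and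
      (ev_slip_inherit (1 / 500000) (by norm_num) (by norm_num))))))]
    with a ha q h0 h1 b1 b2 hS h21 h12 hR hb
  obtain ⟨hT, hB, hKl, hNNk, hNi⟩ := ha
  obtain ⟨u, v, hS⟩ := hS
  have e0 : log (exp a) = a := log_exp a
  have e1 : ∀ x : ℝ, exp a ^ x = exp (x * a) := fun x => by rw [← exp_mul, mul_comm]
  have ha0 : 0 ≤ a := by
    have := hB.one_le
    rwa [one_le_exp_iff] at this
  have k1 : exp (-b1) ^ 2 ≤ exp (-b2) := by
    rw [← exp_nat_mul]; exact exp_le_exp.2 (by push_cast; linarith)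
  have k2 : exp (-b2) ≤ exp (-b1) := exp_le_exp.2 (by linarith)
  have k3 : exp (-b1) ≤ exp a ^ (-(max 10 (40 + 200) : ℝ)) := by
    rw [e1, max_eq_right (by norm_num)]; exact exp_le_exp.2 (by linarith)
  have k4 : exp (-(log (exp a)) ^ (1 + 1 / 16 : ℝ)) ≤ exp (-b2) := by
    rw [e0]; exact exp_le_exp.2 (by linarith)
  obtain ⟨n, x, x', hO⟩ := hT q h0 h1 _ _ u v hS k1 k2
    (by rw [e1]; exact exp_le_exp.2 (by linarith)) k4
  constructor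
  · obtain ⟨N', u', v', g1, g2, g3⟩ := round_point h0 h1 (by norm_num) (by norm_num) (by norm_num)
      (by norm_num) (by norm_num) hB hKl (fun S hS => hNk S (hNNk.trans hS)) hNi hS k1 k2 k3 k4 hO
    rw [e1] at g1 g2
    have hN' : 0 < N' := (exp_pos _).trans_le g1
    refine ⟨log N', (le_log_iff_exp_le hN').2 g1, (log_le_iff_le_exp hN').2 g2, u', v', ?_⟩
    rw [exp_log hN']
    refine g3.mono (le_of_eq ?_) (le_of_eq ?_)
    · rw [e1, ← exp_nat_mul, ← exp_add]; push_cast; ring_nf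
    · rw [e1, ← exp_nat_mul, ← exp_nat_mul, ← exp_add, ← exp_add]
      push_cast; ring_nf
  · obtain ⟨u', v', g3⟩ := short_point h0 h1 (by norm_num) (by norm_num) (by norm_num)
      (by norm_num) (by norm_num) hB hKl (fun S hS => hNk S (hNNk.trans hS)) hNi hS k1 k2 k3 k4 hO
    rw [e1] at g3
    refine ⟨u', v', g3.mono (le_of_eq ?_) (le_of_eq ?_)⟩
    · rw [e1, ← exp_nat_mul, ← exp_add, ← exp_add]; push_cast; ring_nf
    · rw [e1, ← exp_nat_mul, ← exp_add]; push_cast; ring_nf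

end Vale.Agent.N321
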