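import Vale.Agent.P321.H35.Round

/-!
The T-step of the lower bound for trace reconstruction, with `(log N) ^ (1/16)` vanishing moments.
-/

namespace Vale.Agent.N321

open Filter Topology Real Vale.Agent.P321
open Vale.Agent.P321.H505 hiding mm le_mm mm_pos mm_le mm_pow_le exp_mm_le kill_le numOK
open Vale.Agent.P321.LB2 hiding Num NumOK TStepU tstep_of tstepU

/-- The number of vanishing moments. -/
noncomputable def mm (c N : ℝ) : ℕ := ⌈c * (Real.log N) ^ (1 / 16 : ℝ)⌉₊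

lemma le_mm (c N : ℝ) : c * (Real.log N) ^ (1 / 16 : ℝ) ≤ mm c N := Nat.le_ceil _

lemma mm_pos {c N : ℝ} (hc : 0 < c) (hN : Real.exp 1 ≤ N) : 1 ≤ mm c N := by
  have h1 : 1 ≤ Real.log N := by
    rw [Real.le_log_iff_exp_le (lt_of_lt_of_le (Real.exp_pos 1) hN)]; exact hN
  unfold mm
  rw [Nat.one_le_ceil_iff]
  positivity

lemma mm_le {c N : ℝ} (hc : 0 < c) (hN : Real.exp 1 ≤ N) :
    (mm c N : ℝ) ≤ (c + 1) * (Real.log N) ^ (1 / 16 : ℝ) := by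
  have h1 : 1 ≤ Real.log N := by
    rw [Real.le_log_iff_exp_le (lt_of_lt_of_le (Real.exp_pos 1) hN)]; exact hN
  have h2 : (1 : ℝ) ≤ (Real.log N) ^ (1 / 16 : ℝ) := Real.one_le_rpow h1 (by norm_num)
  have h3 : (mm c N : ℝ) < c * (Real.log N) ^ (1 / 16 : ℝ) + 1 := Nat.ceil_lt_add_one (by positivity)
  nlinarith

/-- Powers of `mm` below the `16`-th are small compared with `log N`. -/
theorem mm_pow_le {c a τ : ℝ} (hc : 0 < c) (ha : 0 ≤ a) (hτ : 0 < τ) {D : ℕ} (hD : D < 16) :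
    ∀ᶠ N : ℝ in atTop, a * (mm c N : ℝ) ^ D ≤ τ * Real.log N := by
  have hDr : (D : ℝ) < 16 := by exact_mod_cast hD
  have h1 : Tendsto (fun y : ℝ => y ^ (1 - (D : ℝ) / 16)) atTop atTop :=
    tendsto_rpow_atTop (by linarith)
  have h2 := (h1.comp Real.tendsto_log_atTop).eventually_ge_atTop (a * (c + 1) ^ D / τ)
  filter_upwards [h2, eventually_ge_atTop (Real.exp 1)] with N hN hN1
  simp only [Function.comp] at hN
  have hl : 1 ≤ Real.log N := by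
    rw [Real.le_log_iff_exp_le (lt_of_lt_of_le (Real.exp_pos 1) hN1)]; exact hN1
  have h3 := mm_le hc hN1
  have h4 : (mm c N : ℝ) ^ D ≤ (c + 1) ^ D * (Real.log N) ^ ((D : ℝ) / 16) := by
    calc (mm c N : ℝ) ^ D ≤ ((c + 1) * (Real.log N) ^ (1 / 16 : ℝ)) ^ D :=
          pow_le_pow_left₀ (Nat.cast_nonneg _) h3 D
      _ = (c + 1) ^ D * ((Real.log N) ^ (1 / 16 : ℝ)) ^ D := by rw [mul_pow]
      _ = (c + 1) ^ D * (Real.log N) ^ ((D : ℝ) / 16) := by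
          rw [← Real.rpow_natCast ((Real.log N) ^ (1 / 16 : ℝ)) D, ← Real.rpow_mul (by linarith)]
          congr 2
          ring
  rw [div_le_iff₀ hτ] at hN
  have h5 : (Real.log N) ^ (1 - (D : ℝ) / 16) * (Real.log N) ^ ((D : ℝ) / 16) = Real.log N := by
    rw [← Real.rpow_add (by linarith)]
    simp
  calc a * (mm c N : ℝ) ^ D ≤ a * ((c + 1) ^ D * (Real.log N) ^ ((D : ℝ) / 16)) :=
        mul_le_mul_of_nonneg_left h4 ha
    _ = (a * (c + 1) ^ D) * (Real.log N) ^ ((D : ℝ) / 16) := by ring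
    _ ≤ ((Real.log N) ^ (1 - (D : ℝ) / 16) * τ) * (Real.log N) ^ ((D : ℝ) / 16) :=
        mul_le_mul_of_nonneg_right hN (by positivity)
    _ = τ * ((Real.log N) ^ (1 - (D : ℝ) / 16) * (Real.log N) ^ ((D : ℝ) / 16)) := by ring
    _ = τ * Real.log N := by rw [h5]

/-- `exp (a m^D) ≤ N^τ`. -/
theorem exp_mm_le {c a τ : ℝ} (hc : 0 < c) (ha : 0 ≤ a) (hτ : 0 < τ) {D : ℕ} (hD : D < 16) :
    ∀ᶠ N : ℝ in atTop, Real.exp (a * (mm c N : ℝ) ^ D) ≤ N ^ τ := by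
  filter_upwards [mm_pow_le hc ha hτ hD, eventually_gt_atTop 0] with N h hN
  rw [Real.rpow_def_of_pos hN, mul_comm (Real.log N)]
  exact Real.exp_le_exp.2 h

/-- **Kill**: a product of `m = mm c N` factors `≤ N^{-τ}` beats `exp (-B (log N)^{17/16})`, with a
loss `L ≤ N^{B'}` allowed, as soon as `τ c ≥ B + B'`. -/
theorem kill_le {c τ B B' N x L : ℝ} (hcτ : B + B' ≤ τ * c) (hτ : 0 ≤ τ) (hB' : 0 ≤ B')
    (hN : Real.exp 1 ≤ N) (hx0 : 0 ≤ x) (hx : x ≤ N ^ (-τ)) (hL : L ≤ N ^ B') :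
    L * x ^ (mm c N) ≤ Real.exp (-(B * (Real.log N) ^ (17 / 16 : ℝ))) := by
  have hN0 : 0 < N := lt_of_lt_of_le (Real.exp_pos 1) hN
  have hl : 1 ≤ Real.log N := by
    rw [Real.le_log_iff_exp_le hN0]; exact hN
  set y := Real.log N with hy
  have e1 : y ^ (17 / 16 : ℝ) = y * y ^ (1 / 16 : ℝ) := by
    rw [← Real.rpow_one_add' (by linarith) (by norm_num)]
    norm_num
  have hy1 : 1 ≤ y ^ (1 / 16 : ℝ) := Real.one_le_rpow hl (by norm_num)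
  have h1 : x ^ (mm c N) ≤ Real.exp (-(τ * c * y ^ (17 / 16 : ℝ))) := by
    calc x ^ (mm c N) ≤ (N ^ (-τ)) ^ (mm c N) := pow_le_pow_left₀ hx0 hx _
      _ = Real.exp (-(τ * y * (mm c N : ℝ))) := by
          rw [Real.rpow_def_of_pos hN0, ← Real.exp_nat_mul]
          congr 1
          rw [← hy]; ring
      _ ≤ Real.exp (-(τ * c * y ^ (17 / 16 : ℝ))) := by
          apply Real.exp_le_exp.2
          have h2 := le_mm c N
          rw [← hy] at h2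
          rw [e1]
          have h3 : τ * y * (c * y ^ (1 / 16 : ℝ)) ≤ τ * y * (mm c N : ℝ) :=
            mul_le_mul_of_nonneg_left h2 (by positivity)
          nlinarith
  have h2 : L ≤ Real.exp (B' * y ^ (17 / 16 : ℝ)) := by
    refine hL.trans ?_
    rw [Real.rpow_def_of_pos hN0, ← hy]
    apply Real.exp_le_exp.2
    rw [e1]
    have : y * 1 ≤ y * y ^ (1 / 16 : ℝ) := mul_le_mul_of_nonneg_left hy1 (by linarith)
    nlinarith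
  calc L * x ^ (mm c N) ≤ Real.exp (B' * y ^ (17 / 16 : ℝ)) *
        Real.exp (-(τ * c * y ^ (17 / 16 : ℝ))) := by
        apply mul_le_mul h2 h1 (by positivity) (by positivity)
    _ = Real.exp ((B' - τ * c) * y ^ (17 / 16 : ℝ)) := by rw [← Real.exp_add]; ring_nf
    _ ≤ Real.exp (-(B * y ^ (17 / 16 : ℝ))) := by
        apply Real.exp_le_exp.2
        have : 0 ≤ y ^ (17 / 16 : ℝ) := by positivity
        nlinarith

/-- the raw facts for a larger number of moments -/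
lemma rawB_of {ε δ ρ σ N : ℝ} {m0 M0 X P Mi m : ℕ} (R : RawB ε δ ρ σ N m0 M0 X P Mi)
    (hmm : 1 ≤ m) (hW : Real.exp (10 ^ 6 * (m : ℝ) ^ 15) ≤ N ^ σ) :
    ∃ M1 : ℕ, RawB ε δ ρ σ N m M1 X P Mi := by
  have hN1 := R.hN1
  have hN0 : 0 < N := by linarith
  have hσ0 := R.hσ0
  have hσ1 := R.hσ1
  have hε0 := R.hε0
  have hρσ := R.hρσ
  have h1W := R.h1W
  obtain ⟨M1, hM1⟩ : ∃ M1, M1 = ⌈N ^ (1 / 5 + ε)⌉₊ := ⟨_, rfl⟩
  have hWpos : 0 < N ^ σ := rpow_pos_of_pos hN0 σ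
  have hqs : ∀ k, k ≤ 32 * m ^ 5 + 4 → (nG1 k m : ℝ) ≤ N ^ σ ∧ (3 : ℝ) ^ m ≤ N ^ σ ∧
      (nLb m : ℝ) ≤ N ^ σ ∧ ((k : ℝ) + 2) ^ 4 ≤ N ^ σ ∧ ((nE k : ℕ) : ℝ) + 1 ≤ N ^ σ ∧
      (m : ℝ) ≤ N ^ σ ∧ (2 : ℝ) ^ (k ^ 2 * m + m + 4) ≤ N ^ σ := by
    intro k hk
    obtain ⟨h1, h2, h3, h4, h5, h6, h7⟩ := small_quantities hmm hk
    exact ⟨h1.trans hW, h2.trans hW, h3.trans hW, h4.trans hW, h5.trans hW, h6.trans hW,
      h7.trans hW⟩
  obtain ⟨-, -, hLb, -, -, -, -⟩ := hqs 0 (by omega)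
  have hge1 : ∀ a : ℝ, 0 ≤ a → 1 ≤ N ^ a := fun a ha => one_le_rpow hN1 ha
  have hmul : ∀ a b : ℝ, N ^ a * N ^ b = N ^ (a + b) := fun a b => (rpow_add hN0 a b).symm
  have hM1lo : N ^ (1 / 5 + ε) ≤ M1 := by rw [hM1]; exact Nat.le_ceil _
  have hM1hi : (M1 : ℝ) ≤ 2 * N ^ (1 / 5 + ε) := by
    have h1 : (M1 : ℝ) < N ^ (1 / 5 + ε) + 1 := by
      rw [hM1]; exact Nat.ceil_lt_add_one (by positivity)
    have h2 := hge1 (1 / 5 + ε) (by positivity)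
    linarith
  have hLbM1 : (10000 : ℝ) * nLb m ≤ M1 := by
    have h1 : (10000 : ℝ) * nLb m ≤ N ^ σ * N ^ σ :=
      mul_le_mul h1W hLb (Nat.cast_nonneg _) hWpos.le
    refine (h1.trans (rr hN1 ?_)).trans hM1lo
    linarith
  have hLbM1' : 10000 * nLb m ≤ M1 := by exact_mod_cast hLbM1
  have hLb1 : 1 ≤ nLb m := Nat.one_le_two_pow
  have hCdef : (nC m M1 : ℝ) = 2 * M1 + nLb m + 1 := by unfold nC; push_cast; ring
  have hClo : N ^ (1 / 5 + ε) ≤ nC m M1 := by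
    rw [hCdef]
    have : (0 : ℝ) ≤ nLb m := Nat.cast_nonneg _
    have : (0 : ℝ) ≤ M1 := Nat.cast_nonneg _
    linarith
  have hChi : (nC m M1 : ℝ) ≤ N ^ (1 / 5 + ε + σ) := by
    have h1 : (nC m M1 : ℝ) ≤ 3 * M1 := by
      have : nC m M1 ≤ 3 * M1 := by unfold nC; omega
      exact_mod_cast this
    calc (nC m M1 : ℝ) ≤ 6 * N ^ (1 / 5 + ε) := by linarith
      _ ≤ N ^ σ * N ^ (1 / 5 + ε) := by
          apply mul_le_mul_of_nonneg_right (by linarith) (by positivity)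
      _ ≤ _ := rr hN1 (by linarith)
  have hQlo := R.hQlo
  have hQhi := R.hQhi
  have hndef : (nn m M1 X P : ℝ) = nC m M1 * (2 * nQ X P + 1) := by unfold nn; push_cast; ring
  have hnlo : N ^ (7 / 5 + ε + 2 * ρ - σ) ≤ nn m M1 X P := by
    rw [hndef]
    calc N ^ (7 / 5 + ε + 2 * ρ - σ) = N ^ (1 / 5 + ε) * N ^ (6 / 5 + 2 * ρ - σ) := by
          rw [hmul]; congr 1; ring
      _ ≤ nC m M1 * (2 * nQ X P + 1) := by
          apply mul_le_mul hClo _ (by positivity) (Nat.cast_nonneg _)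
          have : (0 : ℝ) ≤ nQ X P := Nat.cast_nonneg _
          linarith
  have hnhi : (nn m M1 X P : ℝ) ≤ N ^ (7 / 5 + ε + 2 * ρ + 6 * σ) := by
    rw [hndef]
    calc (nC m M1 : ℝ) * (2 * nQ X P + 1)
        ≤ N ^ (1 / 5 + ε + σ) * N ^ (6 / 5 + 2 * ρ + 5 * σ) := by
          apply mul_le_mul hChi _ (by positivity) (by positivity)
          have h1 : 3 * N ^ (6 / 5 + 2 * ρ + 4 * σ) ≤ N ^ (6 / 5 + 2 * ρ + 5 * σ) := by
            calc 3 * N ^ (6 / 5 + 2 * ρ + 4 * σ) ≤ N ^ σ * N ^ (6 / 5 + 2 * ρ + 4 * σ) :=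
                  mul_le_mul_of_nonneg_right (by linarith) (by positivity)
              _ = _ := by rw [hmul]; congr 1; ring
          have h2 := hge1 (6 / 5 + 2 * ρ + 4 * σ) (by rw [hρσ]; positivity)
          linarith
      _ = _ := by rw [hmul]; congr 1; ring
  exact ⟨M1, ⟨⟨hN1, h1W, hmm, hqs, hM1lo, hLbM1', hClo, hChi, R.hXhi, R.hXlo, R.hX1, R.hPlo,
    R.hPhi, R.hFlo, hQlo, hQhi, hnlo, hnhi⟩, hσ0, hρσ, R.hδσ, hσ1, hε0, R.hεσ, R.hN100, R.hMiU,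
    R.hMi3, R.hMi4, R.hMi5⟩⟩

lemma ev_rawB2 {ε δ ρ σ c : ℝ} (hσ0 : 0 < σ) (hρσ : ρ = 100 * σ) (hδσ : δ = 1000 * σ)
    (hσ1 : σ ≤ 1 / 10000) (hε0 : 0 < ε) (hεσ : ε ≤ 20 * σ) (hc0 : 0 < c) :
    ∀ᶠ N : ℝ in atTop, ∃ M1 X P Mi : ℕ, RawB ε δ ρ σ N (mm c N) M1 X P Mi ∧ exp 1 ≤ N := by
  filter_upwards [ev_rawB hσ0 hρσ hδσ hσ1 hε0 hεσ one_pos,
    exp_mm_le hc0 (by norm_num : (0 : ℝ) ≤ 10 ^ 6) hσ0 (by norm_num : 15 < 16)] with N hR hW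
  obtain ⟨M0, X, P, Mi, R, hNe⟩ := hR
  obtain ⟨M1, R1⟩ := rawB_of R (mm_pos hc0 hNe) hW
  exact ⟨M1, X, P, Mi, R1, hNe⟩

/-- the numbers of one T-step; `cond k m P X` = what the existence of generic periods needs,
`G0 k m` = bound of the multipliers. -/
structure Num (cond : ℕ → ℕ → ℕ → ℕ → Prop) (G0 : ℕ → ℕ → ℕ) (ε δ D N : ℝ)
    (m c0 C Mi Mo k P X ME M0 MP : ℕ) : Prop where
  cnd : cond k m P X
  hC1 : 2 * c0 + 2 ^ (8 * m ^ 4) + 1 ≤ C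
  hC2 : 4 * 2 ^ (8 * m ^ 4) ≤ C
  mi : 1 ≤ Mi
  mo : 1 ≤ Mo
  c0lo : N ^ (1 / 5 + ε) ≤ c0
  CFlo : N ^ (1 + ε) ≤ ((C * (P ^ 2 / X / 3) : ℕ) : ℝ)
  mihi : ((Mi + Mo : ℕ) : ℝ) ≤ N ^ (8 / 5 + δ)
  nlo : N ^ (7 / 5 : ℝ) ≤ ((C * (2 * (P ^ 3 / X) + 1) : ℕ) : ℝ)
  nhi : ((C * (2 * (P ^ 3 / X) + 1) : ℕ) : ℝ) ≤ N ^ (7 / 5 + δ)
  gE : m * ME ≤ C * (Mi * (P ^ 3 / X))
  g0 : 32 * (m * M0) ≤ C * (P ^ 3 / X)
  gP : 4 * (m * MP) ≤ C * (P ^ 2 / X / 3)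
  ME1 : 1 ≤ ME
  M01 : 1 ≤ M0
  MP1 : 1 ≤ MP
  MED : (ME : ℝ) ≤ N ^ D
  M0D : (M0 : ℝ) ≤ N ^ D
  MPD : (MP : ℝ) ≤ N ^ D
  kill0 : 2 ^ (k ^ 2 * m + 4) * (2 * (C * 3 ^ m) * (N ^ ε * Real.sqrt (N / M0))) ^ m
    ≤ Real.exp (-(3 * (Real.log N) ^ (1 + 1 / 16 : ℝ)))
  kill : 2 ^ (k ^ 2 * m + m + 8) * (8 * ((P ^ 2 / X / 3 : ℕ) : ℝ)) ^ 3
      * ((2 * Mi + 1) * (2 * ((P ^ 3 / X : ℕ) : ℝ) + 1)) * (k + 2) ^ 4
      * ((2 * (C * ((G0 k m * P ^ 2 : ℕ) : ℝ)) * (N ^ ε * Real.sqrt (N / ME))) ^ m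
        + (2 * (C * 3 ^ m) * (N ^ ε * Real.sqrt (N / M0))) ^ m
        + (2 * ((2 ^ (8 * m ^ 4) : ℕ) : ℝ) * (N ^ ε * Real.sqrt (N / MP))) ^ m)
    ≤ Real.exp (-(3 * (Real.log N) ^ (1 + 1 / 16 : ℝ)))

/-- the numbers lemma -/
def NumOK (cond : ℕ → ℕ → ℕ → ℕ → Prop) (G0 : ℕ → ℕ → ℕ) (ε δ D : ℝ) : Prop :=
  ∀ᶠ N : ℝ in atTop, ∃ m c0 C Mi Mo : ℕ, 1 ≤ m ∧ ∀ k, 4 ≤ k → k ≤ 32 * m ^ 5 + 4 →
    ∃ P X ME M0 MP : ℕ, Num cond G0 ε δ D N m c0 C Mi Mo k P X ME M0 MP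

/-- **The numbers lemma** of the T-step. -/
theorem numOK {ε δ : ℝ} (hδ0 : 0 < δ) (hδ1 : δ ≤ 1 / 10) (hε0 : 0 < ε) (hε : ε ≤ δ / 50) :
    NumOK H328.genCond H328.G0 ε δ 100 := by
  obtain ⟨σ, hσ⟩ : ∃ σ, σ = δ / 1000 := ⟨_, rfl⟩
  obtain ⟨ρ, hρ⟩ : ∃ ρ, ρ = 100 * σ := ⟨_, rfl⟩
  have hσ0 : 0 < σ := by rw [hσ]; positivity
  obtain ⟨c, hc⟩ : ∃ c : ℝ, c = (3 + 8) / (20 * σ) := ⟨_, rfl⟩
  have hc0 : 0 < c := by rw [hc]; positivity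
  have hcτ : (3 : ℝ) + 8 ≤ 20 * σ * c := by rw [hc]; field_simp; exact le_rfl
  filter_upwards [ev_rawB2 (ε := ε) (δ := δ) hσ0 hρ (by rw [hσ]; ring) (by linarith) hε0
    (by linarith) hc0, const_le_rpow |(2 ^ 22 : ℝ)| hσ0, log_le_rpow 10 hσ0,
    const_le_rpow ((2 ^ 36 : ℕ) : ℝ) (by norm_num : (0 : ℝ) < 2 / 5)] with N hR hC1 hlog hP0
  obtain ⟨M1, X, P, Mi, RB, hNe⟩ := hR
  obtain ⟨m, hm⟩ : ∃ m, m = mm c N := ⟨_, rfl⟩
  rw [← hm] at RB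
  have R := RB.toRaw
  have hmm := R.hmm
  have hN1 := R.hN1
  have hN0 := R.hN0
  have hMiU := RB.hMiU
  have hP0P : 2 ^ 36 ≤ P := by
    have : ((2 ^ 36 : ℕ) : ℝ) ≤ P := hP0.trans (le_trans (R.hmono (by linarith)) R.hPlo)
    exact_mod_cast this
  have h117 : (1 + 1 / 16 : ℝ) = 17 / 16 := by norm_num
  have hkill : ∀ (x L : ℝ), 0 ≤ x → x ≤ N ^ (-(20 * σ)) → L ≤ N ^ (8 : ℝ) →
      L * x ^ m ≤ exp (-(3 * (log N) ^ (1 + 1 / 16 : ℝ))) := by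
    intro x L hx0 hx hL
    have h1 := kill_le (B := 3) hcτ (by positivity) (by norm_num) hNe hx0 hx hL
    rw [← hm] at h1
    rw [h117]
    exact h1
  refine ⟨m, M1, nC m M1, Mi, Mi, hmm, fun k hk4 hk => ?_⟩
  refine ⟨P, X, nC m M1 * (Mi * nQ X P) / m, nC m M1 * nQ X P / (32 * m),
    nC m M1 * nF X P / (4 * m), ?_⟩
  exact
    { cnd := by
        refine ⟨?_, R.XP (by linarith), hP0P, R.F3 (by linarith), R.FQ (by linarith),
          R.GQ (by linarith) hk⟩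
        exact R.gen (C1 := 2 ^ 22) hC1 hlog (by linarith) (by linarith) (by linarith) hk
      hC1 := le_rfl
      hC2 := R.lbC
      mi := RB.hMi4
      mo := RB.hMi4
      c0lo := R.hM1lo
      CFlo := by
        have := R.iso (by linarith)
        have e : ((nC m M1 * (P ^ 2 / X / 3) : ℕ) : ℝ) = (nF X P : ℝ) * nC m M1 := by
          rw [Nat.cast_mul, mul_comm]; rfl
        rw [e]
        exact this
      mihi := by push_cast; linarith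
      nlo := R.nlo (by linarith)
      nhi := R.nhi (by linarith)
      gE := Nat.mul_div_le _ _
      g0 := by rw [← mul_assoc]; exact Nat.mul_div_le _ _
      gP := by rw [← mul_assoc]; exact Nat.mul_div_le _ _
      ME1 := by
        have := RB.hCMQ
        rw [Nat.one_le_div_iff (by omega)]; omega
      M01 := by
        have := RB.hCQ32
        rw [Nat.one_le_div_iff (by omega)]; exact this
      MP1 := by
        have := RB.hCF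
        rw [Nat.one_le_div_iff (by omega)]; omega
      MED := RB.sz _ RB.hMQ4 _
      M0D := RB.sz _ RB.hQ4 _
      MPD := RB.sz _ (le_trans (by exact_mod_cast RB.hFQ') RB.hQ4) _
      kill0 := hkill _ _ (by positivity) (RB.k0' _ (by positivity) le_rfl) (RB.L3 hk)
      kill := by
        set L : ℝ := (2 : ℝ) ^ (k ^ 2 * m + m + 8) * (8 * (nF X P : ℝ)) ^ 3 *
          ((2 * Mi + 1) * (2 * nQ X P + 1)) * ((k : ℝ) + 2) ^ 4 with hL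
        have h1 := hkill (2 * ((nC m M1 : ℝ) * (nG1 k m * (P : ℝ) ^ 2)) *
            (N ^ ε * √(N / ((nC m M1 * (Mi * nQ X P) / m : ℕ) : ℝ)))) (3 * L) (by positivity)
            (RB.kE hk _ (by positivity) le_rfl) (RB.L4 hk)
        have h2 := hkill (2 * ((nC m M1 : ℝ) * 3 ^ m) *
            (N ^ ε * √(N / ((nC m M1 * nQ X P / (32 * m) : ℕ) : ℝ)))) (3 * L) (by positivity)
            (RB.k0' _ (by positivity) le_rfl) (RB.L4 hk)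
        have h3 := hkill (2 * (nLb m : ℝ) *
            (N ^ ε * √(N / ((nC m M1 * nF X P / (4 * m) : ℕ) : ℝ)))) (3 * L) (by positivity)
            (RB.kP _ (by positivity) le_rfl) (RB.L4 hk)
        have e : ((H328.G0 k m * P ^ 2 : ℕ) : ℝ) = nG1 k m * (P : ℝ) ^ 2 := by
          rw [Nat.cast_mul, Nat.cast_pow]; rfl
        rw [e]
        change L * ((2 * ((nC m M1 : ℝ) * (nG1 k m * (P : ℝ) ^ 2)) *
            (N ^ ε * √(N / ((nC m M1 * (Mi * nQ X P) / m : ℕ) : ℝ)))) ^ m +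
          (2 * ((nC m M1 : ℝ) * 3 ^ m) *
            (N ^ ε * √(N / ((nC m M1 * nQ X P / (32 * m) : ℕ) : ℝ)))) ^ m +
          (2 * (nLb m : ℝ) *
            (N ^ ε * √(N / ((nC m M1 * nF X P / (4 * m) : ℕ) : ℝ)))) ^ m) ≤ _
        linarith }

/-- **The T-step, uniform in `q`**, for errors down to `exp (-(log N) ^ (1 + 1/16))`. -/
def TStepU (ε δ C R0 : ℝ) : Prop := ∀ᶠ N : ℝ in atTop, ∀ q : ℝ, 0 ≤ q → q ≤ 1 →
  ∀ (E1 E2 : ℝ) (u v : List Bool),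
  St q ε N E1 E2 u v → E1 ^ 2 ≤ E2 → E2 ≤ E1 → E1 ≤ N ^ (-R0) →
  Real.exp (-(Real.log N) ^ (1 + 1 / 16 : ℝ)) ≤ E2 →
  ∃ (n : ℕ) (x x' : List Bool), TOut q δ N C E1 E2 u n x x'

theorem tstep_of {cond : ℕ → ℕ → ℕ → ℕ → Prop} {G0 : ℕ → ℕ → ℕ} {ε δ D : ℝ}
    (hε : 0 < ε) (hδ1 : δ ≤ 1) (hcore : TCore) (hgen : GenOK cond G0)
    (hnum : NumOK cond G0 ε δ D) : TStepU ε δ 40 10 := by
  filter_upwards [hnum, ev_St_kap_uni D hε, eventually_ge_atTop 100] with N hN hslip' hN1 q h0 h1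
    E1 E2 u v hS h12 h21 hE1 hE2
  have hslip := hslip' q h0 h1
  have hN0 : (0:ℝ) < N := by linarith
  have hN1' : (1:ℝ) ≤ N := by linarith
  obtain ⟨m, c0, C, Mi, Mo, hm, hk⟩ := hN
  obtain ⟨k, l, w, w', hk4, hkm, hww, hw, hw', hl, hmom⟩ := H505.exists_train m hm
  obtain ⟨P, X, ME, M0, MP, h⟩ := hk k hk4 hkm
  obtain ⟨d, g, hG⟩ := hgen k m P X hk4 hm h.cnd
  have hPR : H576.PR m l w w' (2 ^ (8 * m ^ 4)) := ⟨hmom, hl, hw, hw'⟩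
  set F : ℕ := P ^ 2 / X / 3 with hFdef
  set Q : ℕ := P ^ 3 / X with hQdef
  -- the sizes
  have hE2pos : 0 < E2 := lt_of_lt_of_le (Real.exp_pos _) hE2
  have hE1pos : 0 < E1 := lt_of_lt_of_le hE2pos h21
  have hE1one : E1 ≤ 1 := hE1.trans (Real.rpow_le_one_of_one_le_of_nonpos hN1' (by norm_num))
  have hexp : Real.exp (-(3 * (Real.log N) ^ (1 + 1 / 16 : ℝ))) ≤ E1 ^ 2 * E2 := by
    have e3 : Real.exp (-(3 * (Real.log N) ^ (1 + 1 / 16 : ℝ)))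
        = Real.exp (-(Real.log N) ^ (1 + 1 / 16 : ℝ)) ^ 3 := by
      rw [← Real.exp_nat_mul]; congr 1; push_cast; ring
    rw [e3]
    calc Real.exp (-(Real.log N) ^ (1 + 1 / 16 : ℝ)) ^ 3 ≤ E2 ^ 3 := by gcongr
      _ = E2 ^ 2 * E2 := by ring
      _ ≤ E1 ^ 2 * E2 := by gcongr
  have hexp' : Real.exp (-(3 * (Real.log N) ^ (1 + 1 / 16 : ℝ))) ≤ E1 ^ 2 := by
    refine hexp.trans ?_
    refine mul_le_of_le_one_right (by positivity) (h21.trans hE1one)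
  -- real sizes of `n`, `L`
  have hC1 : 1 ≤ C := by have := h.hC1; omega
  have hQn : ((2 * Q + 1 : ℕ) : ℝ) ≤ N ^ (3 : ℝ) := by
    have a : ((2 * Q + 1 : ℕ) : ℝ) ≤ ((C * (2 * Q + 1) : ℕ) : ℝ) := by
      exact_mod_cast Nat.le_mul_of_pos_left _ hC1
    refine a.trans (h.nhi.trans ?_)
    exact Real.rpow_le_rpow_of_exponent_le hN1' (by linarith)
  have hMn : ((Mi + Mo : ℕ) : ℝ) ≤ N ^ (3 : ℝ) :=
    h.mihi.trans (Real.rpow_le_rpow_of_exponent_le hN1' (by linarith))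
  have hN3 : N ^ (3 : ℝ) = N ^ 3 := by
    rw [← Real.rpow_natCast]; norm_num
  rw [hN3] at hQn hMn
  have hMi : ((2 * Mi + 1 : ℕ) : ℝ) ≤ N ^ 4 := by
    have a : ((2 * Mi + 1 : ℕ) : ℝ) ≤ 3 * ((Mi + Mo : ℕ) : ℝ) := by
      have := h.mi
      have b : 2 * Mi + 1 ≤ 3 * (Mi + Mo) := by omega
      exact_mod_cast b
    calc ((2 * Mi + 1 : ℕ) : ℝ) ≤ 3 * N ^ 3 := a.trans (by linarith)
      _ ≤ N * N ^ 3 := by
        refine mul_le_mul_of_nonneg_right (by linarith) (by positivity)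
      _ = N ^ 4 := by ring
  have hL : (((2 * Mi + 1) * (2 * Q + 1) : ℕ) : ℝ) ≤ N ^ 7 := by
    push_cast at hMi hQn ⊢
    calc (2 * (Mi : ℝ) + 1) * (2 * (Q : ℝ) + 1) ≤ N ^ 4 * N ^ 3 := by gcongr
      _ = N ^ 7 := by ring
  have hMo : (Mo : ℝ) ≤ N ^ 3 := by
    refine le_trans ?_ hMn
    push_cast
    have : (0:ℝ) ≤ Mi := by positivity
    linarith
  have hE1N : E1 ≤ (N ^ 10)⁻¹ := by
    refine hE1.trans (le_of_eq ?_)
    rw [Real.rpow_neg hN0.le]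
    congr 1
    rw [← Real.rpow_natCast]; norm_num
  have hLE : (((2 * Mi + 1) * (2 * Q + 1) : ℕ) : ℝ) * E1 ≤ 1 / 2 :=
    num_LE hN1 hL hE1pos.le hE1N
  -- the core
  obtain ⟨x, x', hne, hlen, hlenx, hnear, hf0, hf1⟩ := hcore q h0 h1 u v hS.ne hS.len k m d g F Q
    (G0 k m * P ^ 2) l w w' (2 ^ (8 * m ^ 4)) hG hPR hww c0 C Mi Mo h.hC1 h.hC2 h.mi h.mo E1 E2
    (N ^ ε * Real.sqrt (N / ME)) (N ^ ε * Real.sqrt (N / M0)) (N ^ ε * Real.sqrt (N / MP)) ME M0 MP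
    (hS.e1 c0 h.c0lo) (hS.e2 _ h.CFlo) hLE h.gE h.g0 h.gP
    (hslip E1 E2 u v hS ME h.ME1 h.MED) (hslip E1 E2 u v hS M0 h.M01 h.M0D)
    (hslip E1 E2 u v hS MP h.MP1 h.MPD)
  have hN40 : N ^ (40 : ℝ) = N ^ 40 := by
    rw [← Real.rpow_natCast]; norm_num
  push_cast at hQn hL
  refine ⟨C * (2 * Q + 1), x, x', hne, hlen, hlenx, h.nlo, h.nhi, ?_, ?_, ?_⟩
  · refine hnear.trans ?_
    rw [hN40]
    refine mul_le_mul_of_nonneg_right ?_ hE1pos.le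
    exact hQn.trans (pow_le_pow_right₀ hN1' (by norm_num))
  · refine hf0.trans ?_
    rw [hN40]
    exact num_f0 hN1 hE1pos (Nat.cast_nonneg Q) hQn (h.kill0.trans hexp')
  · intro M hM
    have hMM : Mi + Mo ≤ M := by
      have := h.mihi.trans hM
      exact_mod_cast this
    refine (ctx_mono h0 h1 x _ hMM).trans (hf1.trans ?_)
    rw [hN40]
    exact num_f1 hN1 hE1pos hE2pos h12 (Nat.cast_nonneg Q) (Nat.cast_nonneg Mi)
      (Nat.cast_nonneg Mo) hQn hMo hL (h.kill.trans hexp)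

theorem tstepU : TStepU (1 / 500000) (1 / 10000) 40 10 :=
  tstep_of (by norm_num) (by norm_num) tCore H328.genOK
    (numOK (by norm_num) (by norm_num) (by norm_num) (by norm_num))

end Vale.Agent.N321
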