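import Vale.Agent.N321.TStep

/-!
Numbers and words of the two kinds of rounds.
-/

namespace Vale.Agent.N321

open Filter Topology Real Vale.Agent.P321
open Vale.Agent.P321.LB2 hiding Num NumOK TStepU tstep_of tstepU norm_W_le
open Vale.Agent.P321.H181 hiding hp g1 G1 g2 Gb_le_hp Gc_le G1_le G2_le sizes kill_factor kill_prod
  wc wc' wu wv W_wc W_wc' W_wu W_wv_sub wc_length wu_length wu_ne kill_gen dc_small near_c near_3
  letters bounds round_point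

/-- padding of the long round -/
noncomputable def hp (N : ℝ) : ℕ := ⌈N ^ (16003 / 10000 : ℝ)⌉₊
/-- padding of the short round -/
noncomputable def hq (N : ℝ) : ℕ := ⌈N ^ (9335 / 10000 : ℝ)⌉₊
/-- letters per level for the first kill -/
noncomputable def g1 (N : ℝ) : ℕ := ⌈N ^ (24004 / 10000 : ℝ)⌉₊
/-- context of the short bound -/
noncomputable def G1 (N : ℝ) : ℕ := ⌈N ^ (80015 / 100000 : ℝ)⌉₊
/-- letters per level for the second kill -/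
noncomputable def g2 (N : ℝ) : ℕ := ⌈N ^ (40007 / 10000 : ℝ)⌉₊

/-- the product of the gains of all levels -/
def Kill (N : ℝ) : Prop :=
  (N ^ (-(1 / 10000) : ℝ)) ^ lv N ≤ exp (-(10 * (log N) ^ (1 + 1 / 16 : ℝ)))

theorem ev_kill : ∀ᶠ N : ℝ in atTop, Kill N := by
  filter_upwards [eventually_gt_atTop 0, tendsto_log_atTop.eventually_ge_atTop 1,
    tendsto_log_atTop.eventually (MA.ev_pow_le 100000 (1 + 1 / 16) (3 / 5 + 1) (by norm_num))]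
    with N hN h1 h2
  unfold Kill
  rw [rpow_def_of_pos hN, ← exp_nat_mul]
  apply exp_le_exp.2
  have hL0 : 0 < log N := by linarith
  rw [rpow_add_one hL0.ne'] at h2
  have hlv2 : (log N) ^ (3 / 5 : ℝ) ≤ ((lv N : ℕ) : ℝ) := Nat.le_ceil _
  have e4 := mul_le_mul_of_nonneg_right hlv2 hL0.le
  linarith

lemma Gb_le_hp {N δ : ℝ} (h : Big N) (hδ : δ ≤ 1 / 10000) : Gb N δ ≤ hp N := by
  apply Nat.ceil_le_ceil
  exact powP h.one_le (by linarith)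

lemma Gc_le {N : ℝ} (h : Big N) :
    lv N * g1 N ≤ (2 * hp N + 1) * (2 ^ lv N * G1 N) := by
  have a1 : ((lv N : ℕ) : ℝ) * (g1 N : ℝ) ≤ N ^ (1 / 100000 + (24004 / 10000 + 1 / 100000) : ℝ) :=
    mulP h.pos (by positivity) h.lvb (leC h (by norm_num) le_rfl)
  have a2 : N ^ (16003 / 10000 + 80015 / 100000 : ℝ) ≤ (hp N : ℝ) * (G1 N : ℝ) := by
    rw [rpow_add h.pos]
    exact mul_le_mul (Nat.le_ceil _) (Nat.le_ceil _) (rpow_nonneg h.pos.le _) (by positivity)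
  have a3 : ((lv N : ℕ) : ℝ) * (g1 N : ℝ) ≤ (hp N : ℝ) * (G1 N : ℝ) :=
    a1.trans ((powP h.one_le (by norm_num)).trans a2)
  have a4 : lv N * g1 N ≤ hp N * G1 N := by exact_mod_cast a3
  refine a4.trans ?_
  have : 1 ≤ 2 ^ lv N := Nat.one_le_two_pow
  calc hp N * G1 N ≤ (2 * hp N + 1) * (1 * G1 N) := by
        rw [one_mul]; exact Nat.mul_le_mul_right _ (by omega)
    _ ≤ (2 * hp N + 1) * (2 ^ lv N * G1 N) := by gcongr

lemma G1_le {N ε : ℝ} {M : ℕ} (h : Big N) (hε : 0 ≤ ε)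
    (hM : (N ^ (40008 / 10000 : ℝ)) ^ (1 / 5 + ε) ≤ M) : G1 N ≤ M := by
  have a1 : (G1 N : ℝ) ≤ N ^ (80016 / 100000 : ℝ) := leC h (by norm_num) (by norm_num)
  have a2 : N ^ (80016 / 100000 : ℝ) ≤ (N ^ (40008 / 10000 : ℝ)) ^ (1 / 5 + ε) := by
    rw [← rpow_mul h.pos.le]
    exact powP h.one_le (by nlinarith)
  exact_mod_cast a1.trans (a2.trans hM)

lemma G2_le {N ε : ℝ} {M : ℕ} (h : Big N) (hε : 0 ≤ ε)
    (hM : (N ^ (40008 / 10000 : ℝ)) ^ (1 + ε) ≤ M) : lv N * g2 N ≤ M := by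
  have a1 : ((lv N : ℕ) : ℝ) * (g2 N : ℝ) ≤ N ^ (1 / 100000 + (40007 / 10000 + 1 / 100000) : ℝ) :=
    mulP h.pos (by positivity) h.lvb (leC h (by norm_num) le_rfl)
  have a2 : N ^ (1 / 100000 + (40007 / 10000 + 1 / 100000) : ℝ) ≤ (N ^ (40008 / 10000 : ℝ)) ^ (1 + ε) := by
    rw [← rpow_mul h.pos.le]
    exact powP h.one_le (by nlinarith)
  exact_mod_cast a1.trans (a2.trans hM)

/-- size of the constants -/
lemma sizes {N δ : ℝ} (h : Big N) (hδ0 : 0 ≤ δ) (hδ : δ ≤ 1 / 10000) :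
    (2:ℝ) ^ lv N ≤ N ∧ (4:ℝ) ^ lv N ≤ N ∧ 2 * (Gb N δ : ℝ) + 1 ≤ N ^ 2 ∧
    2 * ((lv N * g1 N : ℕ) : ℝ) + 1 ≤ N ^ 3 ∧ 2 * (G1 N : ℝ) + 1 ≤ N ∧
    2 * ((lv N * g2 N : ℕ) : ℝ) + 1 ≤ N ^ 5 ∧ 2 * (hp N : ℝ) + 1 ≤ N ^ (160031 / 100000 : ℝ) := by
  have r1 : N ^ (1:ℝ) = N := rpow_one N
  have e2 : N ^ 2 = N ^ (2:ℝ) := by norm_num
  have e3 : N ^ 3 = N ^ (3:ℝ) := by norm_num
  have e5 : N ^ 5 = N ^ (5:ℝ) := by norm_num
  have lvg : ∀ x y : ℝ, 0 ≤ x → x + 4 / 100000 ≤ y →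
      2 * ((lv N * ⌈N ^ x⌉₊ : ℕ) : ℝ) + 1 ≤ N ^ y := by
    intro x y hx hxy
    have a1 : ((lv N : ℕ) : ℝ) * (⌈N ^ x⌉₊ : ℝ) ≤ N ^ (1 / 100000 + (x + 1 / 100000) : ℝ) :=
      mulP h.pos (by positivity) h.lvb (leC h hx le_rfl)
    have a2 : 1 ≤ N ^ (1 / 100000 + (x + 1 / 100000) : ℝ) := one_le_rpow h.one_le (by linarith)
    have a3 : 3 * N ^ (1 / 100000 + (x + 1 / 100000) : ℝ) ≤
        N ^ (1 / 100000 + (x + 1 / 100000) + 1 / 100000 : ℝ) := cstP h (by norm_num)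
    push_cast
    refine le_trans ?_ (a3.trans (powP h.one_le (by linarith)))
    linarith
  refine ⟨?_, ?_, ?_, ?_, ?_, ?_, ?_⟩
  · rw [← r1]
    simpa [rpow_one] using h.two.trans (powP h.one_le (show (1 / 100000 : ℝ) ≤ 1 by norm_num))
  · have := (four_lv h).trans (powP h.one_le (show (2 / 100000 : ℝ) ≤ 1 by norm_num))
    rwa [r1] at this
  · rw [e2]; exact leC5 h (by linarith) (by linarith)
  · rw [e3]; exact lvg _ _ (by norm_num) (by norm_num)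
  · have := leC5 h (show (0:ℝ) ≤ 80015 / 100000 by norm_num) (show (80015 / 100000 : ℝ) + 1 / 100000 ≤ 1 by norm_num)
    rwa [r1] at this
  · rw [e5]; exact lvg _ _ (by norm_num) (by norm_num)
  · exact leC5 h (by norm_num) (by norm_num)

/-- the gain of one level of the Thue-Morse word -/
lemma kill_factor {N S s σ σ' ε : ℝ} {g : ℕ} (h : Big N) (hS0 : 0 < S) (hS : S ≤ N ^ σ)
    (hg : N ^ σ' ≤ g) (hε : 0 ≤ ε) (hs : s ≤ S ^ ε * Real.sqrt (S / g))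
    (hnum : σ * ε + (σ - σ') / 2 + 2 / 100000 ≤ -(1 / 10000)) :
    2 * (2 ^ lv N * s) ≤ N ^ (-(1 / 10000) : ℝ) := by
  have hg0 : 0 < N ^ σ' := rpow_pos_of_pos h.pos _
  have a1 : S ^ ε ≤ N ^ (σ * ε) := by
    rw [rpow_mul h.pos.le]
    exact rpow_le_rpow hS0.le hS hε
  have a2 : S / g ≤ N ^ (σ - σ') := by
    rw [rpow_sub h.pos]
    exact div_le_div₀ (rpow_nonneg h.pos.le _) hS hg0 hg
  have a3 : Real.sqrt (S / g) ≤ N ^ ((σ - σ') / 2) := by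
    calc Real.sqrt (S / g) ≤ Real.sqrt (N ^ (σ - σ')) := Real.sqrt_le_sqrt a2
      _ = N ^ ((σ - σ') / 2) := by
          rw [Real.sqrt_eq_rpow, ← rpow_mul h.pos.le]; congr 1; ring
  have a4 : s ≤ N ^ (σ * ε + (σ - σ') / 2) :=
    hs.trans (mulP h.pos (Real.sqrt_nonneg _) a1 a3)
  have a5 : 2 * (2:ℝ) ^ lv N ≤ N ^ (2 / 100000 : ℝ) := by
    calc 2 * (2:ℝ) ^ lv N ≤ 2 * N ^ (1 / 100000 : ℝ) := by linarith [h.two]
      _ ≤ N ^ (1 / 100000 + 1 / 100000 : ℝ) := cstP h (by norm_num)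
      _ = N ^ (2 / 100000 : ℝ) := by norm_num
  calc 2 * (2 ^ lv N * s) = (2 * (2:ℝ) ^ lv N) * s := by ring
    _ ≤ (2 * (2:ℝ) ^ lv N) * N ^ (σ * ε + (σ - σ') / 2) := by gcongr
    _ ≤ N ^ (2 / 100000 : ℝ) * N ^ (σ * ε + (σ - σ') / 2) :=
        mul_le_mul_of_nonneg_right a5 (rpow_nonneg h.pos.le _)
    _ = N ^ (2 / 100000 + (σ * ε + (σ - σ') / 2)) := by rw [← rpow_add h.pos]
    _ ≤ _ := powP h.one_le (by linarith)

lemma kill_prod {N s : ℝ} (hK : Kill N) (hs0 : 0 ≤ s)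
    (hs : 2 * (2 ^ lv N * s) ≤ N ^ (-(1 / 10000) : ℝ)) :
    ∏ b ∈ Finset.range (lv N), (2 * (2 ^ b * s)) ≤
      exp (-(10 * (log N) ^ (1 + 1 / 16 : ℝ))) := by
  refine le_trans ?_ hK
  calc ∏ b ∈ Finset.range (lv N), (2 * (2 ^ b * s)) ≤
      ∏ _b ∈ Finset.range (lv N), N ^ (-(1 / 10000) : ℝ) := by
        apply Finset.prod_le_prod
        · intro b _; positivity
        · intro b hb
          refine le_trans ?_ hs
          have : (2:ℝ) ^ b ≤ 2 ^ lv N :=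
            pow_le_pow_right₀ (by norm_num) (Finset.mem_range.1 hb).le
          gcongr
    _ = (N ^ (-(1 / 10000) : ℝ)) ^ lv N := by simp

/-- words of the round -/
noncomputable def wc (N : ℝ) (h : ℕ) (x x' : List Bool) : List Bool :=
  padW (tmW x x' (lv N)).1 (tmW x x' (lv N)).1 h
/-- words of the round -/
noncomputable def wc' (N : ℝ) (h : ℕ) (x x' : List Bool) : List Bool :=
  padW (tmW x x' (lv N)).1 (tmW x x' (lv N)).2 h
/-- words of the round -/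
noncomputable def wu (N : ℝ) (h : ℕ) (x x' : List Bool) : List Bool := (tmW (wc N h x x') (wc' N h x x') (lv N)).1
/-- words of the round -/
noncomputable def wv (N : ℝ) (h : ℕ) (x x' : List Bool) : List Bool := (tmW (wc N h x x') (wc' N h x x') (lv N)).2

section
variable {q : ℝ} {N : ℝ} {h : ℕ} {x x' : List Bool}

lemma W_wc : W q (wc N h x x') = zc (W q x) (W q x' - W q x) (lv N) h := by
  rw [wc, W_padW_self, zc, u2, add_sub_cancel, (W_tmW q x x' (lv N)).1]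

lemma W_wc' : W q (wc' N h x x') = zc (W q x) (W q x' - W q x) (lv N) h +
    dc (W q x) (W q x' - W q x) (lv N) h := by
  rw [zc_add_dc, u2, add_sub_cancel, ← (W_tmW q x x' (lv N)).1, ← (W_tmW q x x' (lv N)).2,
    wc', W_padW]

lemma W_wu : W q (wu N h x x') = u3 (W q x) (W q x' - W q x) (lv N) h := by
  rw [wu, (W_tmW q _ _ (lv N)).1, W_wc, W_wc', u3]

lemma W_wv_sub : W q (wv N h x x') - W q (wu N h x x') =
    d3 (W q x) (W q x' - W q x) (lv N) h := by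
  rw [wv, wu, (W_tmW q _ _ (lv N)).1, (W_tmW q _ _ (lv N)).2, W_wc, W_wc', d3]

lemma wc_length (hl : x'.length = x.length) :
    (wc N h x x').length = (2 * h + 1) * (2 ^ lv N * x.length) ∧
    (wc' N h x x').length = (2 * h + 1) * (2 ^ lv N * x.length) := by
  obtain ⟨l1, l2⟩ := tmW_length hl (lv N)
  constructor
  · rw [wc, padW_length rfl, l1]
  · rw [wc', padW_length (l2.trans l1.symm), l1]

lemma wu_length (hl : x'.length = x.length) :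
    (wu N h x x').length = 2 ^ lv N * ((2 * h + 1) * (2 ^ lv N * x.length)) ∧
    (wv N h x x').length = 2 ^ lv N * ((2 * h + 1) * (2 ^ lv N * x.length)) := by
  obtain ⟨l1, l2⟩ := wc_length (N := N) (h := h) hl
  obtain ⟨k1, k2⟩ := tmW_length (l2.trans l1.symm) (lv N)
  exact ⟨by rw [wu, k1, l1], by rw [wv, k2, l1]⟩

lemma wu_ne (hl : x'.length = x.length) (hne : x ≠ x') : wu N h x x' ≠ wv N h x x' := by
  obtain ⟨l1, l2⟩ := wc_length (N := N) (h := h) hl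
  exact tmW_ne (l2.trans l1.symm) (padW_ne (tmW_ne hl hne (lv N)) h) (lv N)

end

/-- kill at a general scale -/
lemma kill_gen {N S ε σ σ' : ℝ} {Z D : Al} {g : ℕ} (hB : Big N) (hK : Kill N) (hS0 : 0 < S) (hS : S ≤ N ^ σ)
    (hg : N ^ σ' ≤ g) (hε : 0 ≤ ε) (hs : ‖(1 - Z) * Z ^ g‖ ≤ S ^ ε * Real.sqrt (S / g))
    (hnum : σ * ε + (σ - σ') / 2 + 2 / 100000 ≤ -(1 / 10000)) (pZ : pn Z ≤ 1) :
    pn (Z ^ (2 ^ lv N * (lv N * g)) * tmL Z D (lv N) * Z ^ (2 ^ lv N * (lv N * g))) ≤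
      exp (-(10 * (log N) ^ (1 + 1 / 16 : ℝ))) * pn D := by
  have kf1 := kill_factor hB hS0 hS hg hε hs hnum
  have kp1 := kill_prod hK (norm_nonneg _) kf1
  have h2 : lv N * g ≤ 2 ^ lv N * (lv N * g) := Nat.le_mul_of_pos_left _ (by positivity)
  have a := ctx_anti (p := pn) (X := tmL Z D (lv N)) norm_one_le pZ h2
  refine a.trans ((tmL_kill (D := D) norm_one_le pZ (s := ‖(1 - Z) * Z ^ g‖) (g := g) le_rfl
    (lv N)).trans ?_)
  exact mul_le_mul_of_nonneg_right kp1 (apply_nonneg pn D)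

/-- smallness of the padded difference -/
lemma dc_small {N : ℝ} {h : ℕ} {Z D : Al} (hB : Big N) (pZ : pn Z ≤ 1) (pV : pn (Z + D) ≤ 1)
    (sz1 : (2:ℝ) ^ lv N ≤ N) (sz2 : (4:ℝ) ^ lv N ≤ N)
    (pDs : pn D ≤ N ^ (-200 : ℝ)) : pn (dc Z D (lv N) h) ≤ N ^ (-190 : ℝ) := by
  have hN0 := hB.pos
  have hN1 := hB.one_le
  have hN100 := hB.two_le
  have pD0 : 0 ≤ pn D := apply_nonneg pn D
  have p1 : pn 1 ≤ 1 := norm_one_le
  have a : pn (dc Z D (lv N) h) ≤ pn (d2 Z D (lv N)) := by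
    have hu := p_pow_le_one pn p1 (u2_le pZ pV (lv N)) h
    exact (p_mul_le_right pn hu).trans (p_mul_le_left pn hu)
  have b : pn (d2 Z D (lv N)) ≤ 2 ^ lv N * pn D + 4 ^ lv N * pn D ^ 2 := by
    have e : d2 Z D (lv N) = tmL Z D (lv N) +
        ((tmU Z (Z + D) (lv N)).2 - (tmU Z (Z + D) (lv N)).1 - tmL Z D (lv N)) := by
      rw [d2]; abel
    rw [e]
    exact (map_add_le_add pn _ _).trans (add_le_add (tmL_le p1 pZ _) (tm_rem p1 pZ pV _))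
  have hDl : pn D ≤ 1 := pDs.trans (rpow_le_one_of_one_le_of_nonpos hN1 (by norm_num))
  have c1 : pn D ^ 2 ≤ pn D := by nlinarith
  have d1 : 2 ^ lv N * pn D + 4 ^ lv N * pn D ^ 2 ≤ 2 * N * pn D := by
    have := mul_le_mul_of_nonneg_right sz1 pD0
    have := mul_le_mul sz2 c1 (sq_nonneg _) hN0.le
    linarith
  have e0 : 2 * N ≤ N ^ (2:ℝ) := by
    rw [show N ^ (2:ℝ) = N ^ 2 by norm_num]
    nlinarith
  have e1 : 2 * N * pn D ≤ N ^ (2:ℝ) * N ^ (-200:ℝ) := mul_le_mul e0 pDs pD0 (by positivity)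
  have f1 : N ^ (2:ℝ) * N ^ (-200:ℝ) ≤ N ^ (-190 : ℝ) := by
    rw [← rpow_add hN0]; exact powP hN1 (by norm_num)
  linarith

lemma near_c {N : ℝ} {Z D Y : Al} {n h : ℕ} (hB : Big N) (pZ : pn Z ≤ 1) (pV : pn (Z + D) ≤ 1)
    (pY : pn Y ≤ 1) (hh7 : 2 * (h : ℝ) + 1 ≤ N ^ (2 : ℝ))
    (pDs : pn D ≤ N ^ (-200 : ℝ)) (nearZ : pn (Z - Y ^ n) ≤ N ^ (-200 : ℝ)) :
    pn (zc Z D (lv N) h - Y ^ (n * (2 ^ lv N * (2 * h + 1)))) ≤ N ^ (-190 : ℝ) := by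
  have hN0 := hB.pos
  have hN1 := hB.one_le
  have p1 : pn 1 ≤ 1 := norm_one_le
  have a := zc_near p1 pZ pV (lv N) h
  have b := pow_sub_pow_le p1 pZ (p_pow_le_one pn p1 pY n) (2 ^ lv N * (2 * h + 1))
  have e : zc Z D (lv N) h - Y ^ (n * (2 ^ lv N * (2 * h + 1))) =
      (zc Z D (lv N) h - Z ^ (2 ^ lv N * (2 * h + 1))) +
      (Z ^ (2 ^ lv N * (2 * h + 1)) - (Y ^ n) ^ (2 ^ lv N * (2 * h + 1))) := by
    rw [← pow_mul]; abel
  rw [e]
  refine (map_add_le_add pn _ _).trans ?_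
  have a' : pn (zc Z D (lv N) h - Z ^ (2 ^ lv N * (2 * h + 1))) ≤
      N ^ (3:ℝ) * N ^ (-200:ℝ) := by
    refine a.trans ?_
    calc ((2 * h + 1 : ℕ) : ℝ) * (2 ^ lv N * pn D) =
          ((2 * (h : ℝ) + 1) * 2 ^ lv N) * pn D := by push_cast; ring
      _ ≤ N ^ (3:ℝ) * N ^ (-200:ℝ) := by
          refine mul_le_mul ?_ pDs (apply_nonneg pn D) (by positivity)
          exact (mulP hN0 (by positivity) hh7 hB.two).trans (powP hN1 (by norm_num))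
  have b' : pn (Z ^ (2 ^ lv N * (2 * h + 1)) - (Y ^ n) ^ (2 ^ lv N * (2 * h + 1))) ≤
      N ^ (3:ℝ) * N ^ (-200:ℝ) := by
    refine b.trans ?_
    refine mul_le_mul ?_ nearZ (apply_nonneg pn _) (by positivity)
    push_cast
    exact (mulP hN0 (by positivity) hB.two hh7).trans (powP hN1 (by norm_num))
  have f1 : N ^ (3:ℝ) * N ^ (-200:ℝ) = N ^ (-197 : ℝ) := by
    rw [← rpow_add hN0]; norm_num
  have f2 : 2 * N ^ (-197:ℝ) ≤ N ^ (-190:ℝ) :=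
    (cstP hB (by norm_num)).trans (powP hN1 (by norm_num))
  rw [f1] at a' b'
  linarith

lemma near_3 {N : ℝ} {Z D Y : Al} {n h : ℕ} (hB : Big N) (pZ : pn Z ≤ 1) (pV : pn (Z + D) ≤ 1)
    (pY : pn Y ≤ 1) (hh7 : 2 * (h : ℝ) + 1 ≤ N ^ (2 : ℝ))
    (pDs : pn D ≤ N ^ (-200 : ℝ)) (nearZ : pn (Z - Y ^ n) ≤ N ^ (-200 : ℝ))
    (pdCs : pn (dc Z D (lv N) h) ≤ N ^ (-190 : ℝ)) :
    pn (u3 Z D (lv N) h - Y ^ (n * (2 ^ lv N * (2 * h + 1) * 2 ^ lv N))) ≤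
      N ^ (-100 : ℝ) := by
  have hN0 := hB.pos
  have hN1 := hB.one_le
  have p1 : pn 1 ≤ 1 := norm_one_le
  have a := u3_near p1 pZ pV (lv N) h
  have b := pow_sub_pow_le p1 pZ (p_pow_le_one pn p1 pY n) (2 ^ lv N * (2 * h + 1) * 2 ^ lv N)
  have e : u3 Z D (lv N) h - Y ^ (n * (2 ^ lv N * (2 * h + 1) * 2 ^ lv N)) =
      (u3 Z D (lv N) h - Z ^ (2 ^ lv N * (2 * h + 1) * 2 ^ lv N)) +
      (Z ^ (2 ^ lv N * (2 * h + 1) * 2 ^ lv N) -
        (Y ^ n) ^ (2 ^ lv N * (2 * h + 1) * 2 ^ lv N)) := by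
    rw [← pow_mul]; abel
  rw [e]
  refine (map_add_le_add pn _ _).trans ?_
  have a1 : (2:ℝ) ^ lv N * pn (dc Z D (lv N) h) ≤ N ^ (5:ℝ) * N ^ (-190:ℝ) := by
    refine mul_le_mul (hB.two.trans (powP hN1 (by norm_num))) pdCs (apply_nonneg pn _)
      (by positivity)
  have a2 : (2:ℝ) ^ lv N * (((2 * h + 1 : ℕ) : ℝ) * (2 ^ lv N * pn D)) ≤
      N ^ (5:ℝ) * N ^ (-190:ℝ) := by
    calc (2:ℝ) ^ lv N * (((2 * h + 1 : ℕ) : ℝ) * (2 ^ lv N * pn D)) =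
          (2 ^ lv N * ((2 * (h : ℝ) + 1) * 2 ^ lv N)) * pn D := by push_cast; ring
      _ ≤ N ^ (5:ℝ) * N ^ (-190:ℝ) := by
          refine mul_le_mul ?_ (pDs.trans (powP hN1 (by norm_num))) (apply_nonneg pn D)
            (by positivity)
          exact (mulP hN0 (by positivity) hB.two (mulP hN0 (by positivity) hh7 hB.two)).trans
            (powP hN1 (by norm_num))
  have b' : pn (Z ^ (2 ^ lv N * (2 * h + 1) * 2 ^ lv N) -
      (Y ^ n) ^ (2 ^ lv N * (2 * h + 1) * 2 ^ lv N)) ≤ N ^ (5:ℝ) * N ^ (-190:ℝ) := by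
    refine b.trans ?_
    refine mul_le_mul ?_ (nearZ.trans (powP hN1 (by norm_num))) (apply_nonneg pn _)
      (by positivity)
    push_cast
    exact (mulP hN0 (by positivity) (mulP hN0 (by positivity) hB.two hh7) hB.two).trans
      (powP hN1 (by norm_num))
  have f1 : N ^ (5:ℝ) * N ^ (-190:ℝ) = N ^ (-185 : ℝ) := by
    rw [← rpow_add hN0]; norm_num
  have f2 : 3 * N ^ (-185:ℝ) ≤ N ^ (-100:ℝ) :=
    (cstP hB (by norm_num)).trans (powP hN1 (by norm_num))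
  rw [f1] at a1 a2 b'
  linarith

end Vale.Agent.N321
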